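import Crest.Agent.Lib.LinSieve.Main

/-! Corollaries of the upper bound sieve: Brun-Titchmarsh, two/three linear forms, weighted sums,
and the bound for `E / φ(E)`. -/

set_option autoImplicit false

namespace Crest.Agent.Lib.LinSieve

open Finset

/-! ### The ratio `E / φ(E)` -/

/-- `E / φ(E) ≤ C log (log E + 3)`. -/
theorem ratio_le : ∃ C : ℝ, 0 < C ∧ ∀ E : ℕ, E ≠ 0 →
    (E : ℝ) / Nat.totient E ≤ C * Real.log (Real.log E + 3) := by
  set c : ℝ := Real.exp (-(22 / Real.log 2)) * Real.log 2 with hc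
  have hlog2 : 0 < Real.log 2 := Real.log_pos (by norm_num)
  have hc0 : 0 < c := by positivity
  refine ⟨2 * c⁻¹ * Real.exp 2, by positivity, fun E hE => ?_⟩
  have hE1 : 1 ≤ E := Nat.pos_of_ne_zero hE
  have hE0 : (0 : ℝ) < E := by exact_mod_cast hE1
  set L : ℝ := Real.log E + 3 with hL
  have hlE : 0 ≤ Real.log E := Real.log_natCast_nonneg E
  have hL3 : 3 ≤ L := by linarith
  have hL0 : 0 < L := by linarith
  have hlL : 1 ≤ Real.log L := by
    rw [Real.le_log_iff_exp_le hL0]
    have := Real.exp_one_lt_d9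
    linarith
  have hEt : (0 : ℝ) < Nat.totient E := by
    exact_mod_cast Nat.totient_pos.2 hE1
  have hb : ∀ p : ℕ, p.Prime → 0 < 1 - 1 / (p : ℝ) ∧ 1 - 1 / (p : ℝ) ≤ 1 := by
    intro p hp
    have h2 : (2 : ℝ) ≤ p := by exact_mod_cast hp.two_le
    have h3 : 1 / (p : ℝ) ≤ 1 / 2 := one_div_le_one_div_of_le (by norm_num) h2
    have h4 : 0 < 1 / (p : ℝ) := by positivity
    constructor <;> linarith
  -- split the prime factors
  have hsplit := Finset.prod_filter_mul_prod_filter_not E.primeFactors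
    (fun p : ℕ => (p : ℝ) ≤ L) (fun p => 1 - 1 / (p : ℝ))
  rw [prod_primeFactors_eq E hE] at hsplit
  -- small primes
  have hsm : (1 / 2) * (c / Real.log L) ≤
      ∏ p ∈ E.primeFactors.filter (fun p : ℕ => (p : ℝ) ≤ L), (1 - 1 / (p : ℝ)) := by
    have h1 := (Mertens.mertens_three 2 L le_rfl (by linarith)).1
    have h2 : (1 / 2) * ∏ p ∈ Mertens.pr 2 L, (1 - 1 / (p : ℝ)) =
        ∏ p ∈ insert 2 (Mertens.pr 2 L), (1 - 1 / (p : ℝ)) := by
      rw [Finset.prod_insert]
      · norm_num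
      · rw [Mertens.mem_pr (by norm_num) hL0.le]
        rintro ⟨⟨h, _⟩, _⟩
        norm_num at h
    have h3 : E.primeFactors.filter (fun p : ℕ => (p : ℝ) ≤ L) ⊆ insert 2 (Mertens.pr 2 L) := by
      intro p hp
      rw [Finset.mem_filter, Nat.mem_primeFactors] at hp
      rw [Finset.mem_insert, Mertens.mem_pr (by norm_num) hL0.le]
      rcases hp.1.1.two_le.lt_or_eq with h4 | h4
      · right
        refine ⟨⟨?_, hp.2⟩, hp.1.1⟩
        exact_mod_cast h4
      · left
        exact h4.symm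
    have hprime : ∀ p ∈ insert 2 (Mertens.pr 2 L), p.Prime := by
      intro p hp
      rw [Finset.mem_insert, Mertens.mem_pr (by norm_num) hL0.le] at hp
      rcases hp with rfl | hp
      · exact Nat.prime_two
      · exact hp.2
    have h4 : ∏ p ∈ insert 2 (Mertens.pr 2 L), (1 - 1 / (p : ℝ)) ≤
        ∏ p ∈ E.primeFactors.filter (fun p : ℕ => (p : ℝ) ≤ L), (1 - 1 / (p : ℝ)) := by
      rw [← Finset.prod_sdiff h3]
      refine mul_le_of_le_one_left ?_ ?_
      · exact Finset.prod_nonneg fun p hp => (hb p (hprime p (h3 hp))).1.le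
      · exact Finset.prod_le_one
          (fun p hp => (hb p (hprime p (Finset.sdiff_subset hp))).1.le)
          (fun p hp => (hb p (hprime p (Finset.sdiff_subset hp))).2)
    rw [← h2] at h4
    refine le_trans ?_ h4
    apply mul_le_mul_of_nonneg_left _ (by norm_num)
    refine le_trans (le_of_eq ?_) h1
    rw [hc]
    ring
  -- large primes
  have hlg : Real.exp (-2) ≤
      ∏ p ∈ E.primeFactors.filter (fun p : ℕ => ¬ (p : ℝ) ≤ L), (1 - 1 / (p : ℝ)) := by
    have h1 : ∀ p ∈ E.primeFactors.filter (fun p : ℕ => ¬ (p : ℝ) ≤ L),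
        Real.exp (-(2 / L)) ≤ 1 - 1 / (p : ℝ) := by
      intro p hp
      rw [Finset.mem_filter, not_le] at hp
      have hp0 : (0 : ℝ) < p := by linarith [hp.2]
      have h2 : 1 / (p : ℝ) ≤ 1 / L := one_div_le_one_div_of_le hL0 hp.2.le
      have h3 : 1 / L ≤ 1 / 3 := one_div_le_one_div_of_le (by norm_num) hL3
      have h5 : Real.exp (-(2 / L)) ≤ 1 - 1 / L := by
        -- exp(-2t) ≤ 1 - t for 0 ≤ t ≤ 1/2
        have h6 : 1 + 2 / L ≤ Real.exp (2 / L) := by
          have := Real.add_one_le_exp (2 / L)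
          linarith
        rw [Real.exp_neg]
        have h7 : 0 < 1 - 1 / L := by linarith
        rw [inv_le_comm₀ (Real.exp_pos _) h7]
        refine le_trans ?_ h6
        rw [inv_eq_one_div, div_le_iff₀ h7]
        have h8 : 0 < 1 / L := by positivity
        have h9 : 2 / L = 2 * (1 / L) := by ring
        rw [h9]
        nlinarith
      linarith
    have hcard : ((E.primeFactors.filter (fun p : ℕ => ¬ (p : ℝ) ≤ L)).card : ℝ) ≤ L := by
      -- 2 ^ card ≤ E
      have h2 : ∏ p ∈ E.primeFactors.filter (fun p : ℕ => ¬ (p : ℝ) ≤ L), (p : ℝ) ≤ E := by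
        have h3 : ∏ p ∈ E.primeFactors.filter (fun p : ℕ => ¬ (p : ℝ) ≤ L), p ∣ E :=
          (Finset.prod_dvd_prod_of_subset _ _ (fun p => p) (Finset.filter_subset _ _)).trans
            (Nat.prod_primeFactors_dvd E)
        have h4 := Nat.le_of_dvd hE1 h3
        calc ∏ p ∈ E.primeFactors.filter (fun p : ℕ => ¬ (p : ℝ) ≤ L), (p : ℝ) =
            ((∏ p ∈ E.primeFactors.filter (fun p : ℕ => ¬ (p : ℝ) ≤ L), p : ℕ) : ℝ) := by
              push_cast; rfl
          _ ≤ E := by exact_mod_cast h4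
      have h3 : Real.exp 1 ^ (E.primeFactors.filter (fun p : ℕ => ¬ (p : ℝ) ≤ L)).card ≤ E := by
        refine le_trans ?_ h2
        rw [← Finset.prod_const]
        apply Finset.prod_le_prod
        · intro _ _
          exact (Real.exp_pos 1).le
        · intro p hp
          rw [Finset.mem_filter, not_le] at hp
          have := Real.exp_one_lt_d9
          linarith [hp.2]
      have h4 := Real.log_le_log (by positivity) h3
      rw [Real.log_pow, Real.log_exp, mul_one] at h4
      linarith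
    calc Real.exp (-2) = Real.exp (-(2 / L)) ^ L := by
          rw [← Real.exp_mul]
          congr 1
          field_simp
      _ ≤ Real.exp (-(2 / L)) ^
          ((E.primeFactors.filter (fun p : ℕ => ¬ (p : ℝ) ≤ L)).card : ℝ) := by
          apply Real.rpow_le_rpow_of_exponent_ge (Real.exp_pos _)
          · rw [Real.exp_le_one_iff]
            have : 0 < 2 / L := by positivity
            linarith
          · exact hcard
      _ = Real.exp (-(2 / L)) ^
          (E.primeFactors.filter (fun p : ℕ => ¬ (p : ℝ) ≤ L)).card := Real.rpow_natCast _ _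
      _ = ∏ p ∈ E.primeFactors.filter (fun p : ℕ => ¬ (p : ℝ) ≤ L), Real.exp (-(2 / L)) := by
          rw [Finset.prod_const]
      _ ≤ _ := Finset.prod_le_prod (fun _ _ => (Real.exp_pos _).le) h1
  have hfin : (1 / 2) * (c / Real.log L) * Real.exp (-2) ≤ (Nat.totient E : ℝ) / E := by
    rw [← hsplit]
    apply mul_le_mul hsm hlg (Real.exp_pos _).le
    apply Finset.prod_nonneg
    intro p hp
    rw [Finset.mem_filter] at hp
    exact (hb p (Nat.prime_of_mem_primeFactors hp.1)).1.le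
  have h9 : (E : ℝ) / Nat.totient E = ((Nat.totient E : ℝ) / E)⁻¹ := by rw [inv_div]
  rw [h9]
  have h10 : 0 < (1 / 2) * (c / Real.log L) * Real.exp (-2) := by positivity
  refine (inv_anti₀ h10 hfin).trans (le_of_eq ?_)
  rw [Real.exp_neg]
  field_simp

/-! ### Partial summation -/

lemma abel_id (S : ℕ → Prop) [DecidablePred S] (u w : ℕ) (hu : 1 ≤ u) (huw : u ≤ w) :
    ∑ n ∈ (Finset.Ioc u w).filter S, (1 : ℝ) / n =
      (((Finset.Ioc 0 w).filter S).card : ℝ) / w - (((Finset.Ioc 0 u).filter S).card : ℝ) / u +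
        ∑ n ∈ Finset.Ico u w, (((Finset.Ioc 0 n).filter S).card : ℝ) * (1 / n - 1 / (n + 1)) := by
  induction w, huw using Nat.le_induction with
  | base => simp
  | succ w huw ih =>
    have hw0 : (0 : ℝ) < w := by
      have : 0 < w := by omega
      exact_mod_cast this
    rw [Finset.sum_Ico_succ_top huw]
    have e1 : Finset.Ioc u (w + 1) = insert (w + 1) (Finset.Ioc u w) := by
      ext n; simp only [Finset.mem_Ioc, Finset.mem_insert]; omega
    have e2 : Finset.Ioc 0 (w + 1) = insert (w + 1) (Finset.Ioc 0 w) := by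
      ext n; simp only [Finset.mem_Ioc, Finset.mem_insert]; omega
    have n1 : w + 1 ∉ (Finset.Ioc u w).filter S := by
      simp
    have n2 : w + 1 ∉ (Finset.Ioc 0 w).filter S := by
      simp
    rw [e1, e2, Finset.filter_insert, Finset.filter_insert]
    split_ifs with hS
    · rw [Finset.sum_insert n1, Finset.card_insert_of_notMem n2, ih]
      push_cast
      field_simp
      ring
    · rw [ih]
      push_cast
      field_simp
      ring

lemma inv_log_telescope (n : ℕ) (hn : 2 ≤ n) :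
    1 / (((n : ℝ) + 1) * Real.log n ^ 2) ≤
      2 * (1 / Real.log n - 1 / Real.log ((n + 1 : ℕ) : ℝ)) := by
  have hn2 : (2 : ℝ) ≤ n := by exact_mod_cast hn
  have hn0 : (0 : ℝ) < n := by linarith
  have hl : 0 < Real.log n := Real.log_pos (by linarith)
  have hl1 : 0 < Real.log ((n + 1 : ℕ) : ℝ) := Real.log_pos (by push_cast; linarith)
  have h1 : 1 / ((n : ℝ) + 1) ≤ Real.log ((n + 1 : ℕ) : ℝ) - Real.log n := by
    have h2 := Real.log_le_sub_one_of_pos (show 0 < (n : ℝ) / (n + 1) by positivity)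
    rw [Real.log_div hn0.ne' (by positivity)] at h2
    have h3 : (n : ℝ) / (n + 1) - 1 = -(1 / ((n : ℝ) + 1)) := by
      field_simp
      ring
    rw [h3] at h2
    push_cast
    linarith
  have h4 : Real.log ((n + 1 : ℕ) : ℝ) ≤ 2 * Real.log n := by
    have h5 : Real.log ((n + 1 : ℕ) : ℝ) ≤ Real.log ((n : ℝ) ^ 2) := by
      apply Real.log_le_log (by positivity)
      push_cast
      nlinarith
    rw [Real.log_pow] at h5
    exact_mod_cast h5
  have h6 : 1 / Real.log n - 1 / Real.log ((n + 1 : ℕ) : ℝ) =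
      (Real.log ((n + 1 : ℕ) : ℝ) - Real.log n) / (Real.log n * Real.log ((n + 1 : ℕ) : ℝ)) := by
    field_simp
  rw [h6]
  have h7 : (1 / ((n : ℝ) + 1)) / (Real.log n * (2 * Real.log n)) ≤
      (Real.log ((n + 1 : ℕ) : ℝ) - Real.log n) / (Real.log n * Real.log ((n + 1 : ℕ) : ℝ)) := by
    apply div_le_div₀
    · exact le_trans (by positivity) h1
    · exact h1
    · positivity
    · exact mul_le_mul_of_nonneg_left h4 hl.le
  have h8 : 1 / (((n : ℝ) + 1) * Real.log n ^ 2) =
      2 * ((1 / ((n : ℝ) + 1)) / (Real.log n * (2 * Real.log n))) := by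
    field_simp
  rw [h8]
  linarith

lemma loglog_telescope (n : ℕ) (hn : 2 ≤ n) :
    1 / (((n : ℝ) + 1) * Real.log n) ≤
      2 * (Real.log (Real.log ((n + 1 : ℕ) : ℝ)) - Real.log (Real.log n)) := by
  have hn2 : (2 : ℝ) ≤ n := by exact_mod_cast hn
  have hn0 : (0 : ℝ) < n := by linarith
  have hl : 0 < Real.log n := Real.log_pos (by linarith)
  have hl1 : 0 < Real.log ((n + 1 : ℕ) : ℝ) := Real.log_pos (by push_cast; linarith)
  have h1 : 1 / ((n : ℝ) + 1) ≤ Real.log ((n + 1 : ℕ) : ℝ) - Real.log n := by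
    have h2 := Real.log_le_sub_one_of_pos (show 0 < (n : ℝ) / (n + 1) by positivity)
    rw [Real.log_div hn0.ne' (by positivity)] at h2
    have h3 : (n : ℝ) / (n + 1) - 1 = -(1 / ((n : ℝ) + 1)) := by
      field_simp
      ring
    rw [h3] at h2
    push_cast
    linarith
  have h4 : Real.log ((n + 1 : ℕ) : ℝ) ≤ 2 * Real.log n := by
    have h5 : Real.log ((n + 1 : ℕ) : ℝ) ≤ Real.log ((n : ℝ) ^ 2) := by
      apply Real.log_le_log (by positivity)
      push_cast
      nlinarith
    rw [Real.log_pow] at h5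
    exact_mod_cast h5
  have h5 : (Real.log ((n + 1 : ℕ) : ℝ) - Real.log n) / Real.log ((n + 1 : ℕ) : ℝ) ≤
      Real.log (Real.log ((n + 1 : ℕ) : ℝ)) - Real.log (Real.log n) := by
    have h6 := Real.log_le_sub_one_of_pos (show 0 < Real.log n / Real.log ((n + 1 : ℕ) : ℝ) by
      positivity)
    rw [Real.log_div hl.ne' hl1.ne'] at h6
    have h7 : (Real.log ((n + 1 : ℕ) : ℝ) - Real.log n) / Real.log ((n + 1 : ℕ) : ℝ) =
        1 - Real.log n / Real.log ((n + 1 : ℕ) : ℝ) := by
      field_simp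
    rw [h7]
    linarith
  have h7 : (1 / ((n : ℝ) + 1)) / (2 * Real.log n) ≤
      (Real.log ((n + 1 : ℕ) : ℝ) - Real.log n) / Real.log ((n + 1 : ℕ) : ℝ) := by
    apply div_le_div₀
    · exact le_trans (by positivity) h1
    · exact h1
    · exact hl1
    · exact h4
  have h8 : 1 / (((n : ℝ) + 1) * Real.log n) =
      2 * ((1 / ((n : ℝ) + 1)) / (2 * Real.log n)) := by
    field_simp
  rw [h8]
  linarith

lemma telescope (f : ℕ → ℝ) (u w : ℕ) (huw : u ≤ w) :
    ∑ n ∈ Finset.Ico u w, (f n - f (n + 1)) = f u - f w := by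
  induction w, huw using Nat.le_induction with
  | base => simp
  | succ w huw ih =>
    rw [Finset.sum_Ico_succ_top huw, ih]
    ring

/-- Partial summation, `k + 2` forms: from a counting bound to a bound of `∑ 1/n`. -/
lemma sum_inv_nat_of_count (S : ℕ → Prop) [DecidablePred S] (k : ℕ) (M : ℝ) (hM : 0 ≤ M)
    (hcount : ∀ n : ℕ, 2 ≤ n →
      (((Finset.Ioc 0 n).filter S).card : ℝ) ≤ M * (n / Real.log n ^ (k + 2)))
    (u w : ℕ) (hu : 2 ≤ u) :
    ∑ n ∈ (Finset.Ioc u w).filter S, (1 : ℝ) / n ≤ 4 * M / Real.log u ^ (k + 1) := by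
  have hu2 : (2 : ℝ) ≤ u := by exact_mod_cast hu
  have hlu : 0 < Real.log u := Real.log_pos (by linarith)
  by_cases huw : u ≤ w
  swap
  · rw [Finset.Ioc_eq_empty (by omega)]
    simp
    positivity
  rw [abel_id S u w (by omega) huw]
  have hw2 : 2 ≤ w := hu.trans huw
  have hw2' : (2 : ℝ) ≤ w := by exact_mod_cast hw2
  have hlw : Real.log u ≤ Real.log w :=
    Real.log_le_log (by linarith) (by exact_mod_cast huw)
  have hu1 : 1 / Real.log u ≤ 3 / 2 := by
    rw [div_le_div_iff₀ hlu (by norm_num)]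
    have h1 := Real.log_two_gt_d9
    have h2 := Real.log_le_log (by norm_num) hu2
    linarith
  -- first term
  have t1 : (((Finset.Ioc 0 w).filter S).card : ℝ) / w ≤ M * (3 / 2) / Real.log u ^ (k + 1) := by
    have h1 := hcount w hw2
    have hw0 : (0 : ℝ) < w := by linarith
    rw [div_le_iff₀ hw0]
    refine h1.trans ?_
    have h2 : (w : ℝ) / Real.log w ^ (k + 2) ≤ (3 / 2) / Real.log u ^ (k + 1) * w := by
      have h3 : Real.log u ^ (k + 2) ≤ Real.log w ^ (k + 2) := pow_le_pow_left₀ hlu.le hlw _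
      calc (w : ℝ) / Real.log w ^ (k + 2) ≤ w / Real.log u ^ (k + 2) :=
            div_le_div_of_nonneg_left hw0.le (pow_pos hlu _) h3
        _ = w * (1 / Real.log u) / Real.log u ^ (k + 1) := by
            rw [pow_succ]
            field_simp
        _ ≤ w * (3 / 2) / Real.log u ^ (k + 1) := by gcongr
        _ = _ := by ring
    calc M * ((w : ℝ) / Real.log w ^ (k + 2)) ≤ M * ((3 / 2) / Real.log u ^ (k + 1) * w) :=
          mul_le_mul_of_nonneg_left h2 hM
      _ = _ := by ring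
  have t2 : 0 ≤ (((Finset.Ioc 0 u).filter S).card : ℝ) / u := by positivity
  have t3 : ∑ n ∈ Finset.Ico u w, (((Finset.Ioc 0 n).filter S).card : ℝ) * (1 / n - 1 / (n + 1)) ≤
      2 * M / Real.log u ^ (k + 1) := by
    have h1 : ∀ n ∈ Finset.Ico u w,
        (((Finset.Ioc 0 n).filter S).card : ℝ) * (1 / n - 1 / (n + 1)) ≤
          (M / Real.log u ^ k) * (2 * (1 / Real.log n - 1 / Real.log ((n + 1 : ℕ) : ℝ))) := by
      intro n hn
      rw [Finset.mem_Ico] at hn
      have hn2 : 2 ≤ n := hu.trans hn.1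
      have hn2' : (2 : ℝ) ≤ n := by exact_mod_cast hn2
      have hn0 : (0 : ℝ) < n := by linarith
      have hln : 0 < Real.log n := Real.log_pos (by linarith)
      have hlun : Real.log u ≤ Real.log n :=
        Real.log_le_log (by linarith) (by exact_mod_cast hn.1)
      have h2 : (1 : ℝ) / n - 1 / (n + 1) = 1 / (n * (n + 1)) := by
        field_simp
        ring
      rw [h2]
      calc (((Finset.Ioc 0 n).filter S).card : ℝ) * (1 / (n * (n + 1)))
          ≤ (M * (n / Real.log n ^ (k + 2))) * (1 / (n * (n + 1))) :=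
            mul_le_mul_of_nonneg_right (hcount n hn2) (by positivity)
        _ = (M / Real.log n ^ k) * (1 / (((n : ℝ) + 1) * Real.log n ^ 2)) := by
            field_simp
            ring
        _ ≤ (M / Real.log u ^ k) * (2 * (1 / Real.log n - 1 / Real.log ((n + 1 : ℕ) : ℝ))) := by
            apply mul_le_mul
            · exact div_le_div_of_nonneg_left hM (pow_pos hlu _) (pow_le_pow_left₀ hlu.le hlun _)
            · exact inv_log_telescope n hn2
            · positivity
            · positivity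
    refine (Finset.sum_le_sum h1).trans ?_
    rw [← Finset.mul_sum, ← Finset.mul_sum, telescope (fun n => 1 / Real.log ((n : ℕ) : ℝ)) u w huw]
    have hlw0 : 0 ≤ 1 / Real.log (w : ℝ) := by
      have : 0 < Real.log (w : ℝ) := by linarith
      positivity
    calc M / Real.log u ^ k * (2 * (1 / Real.log (u : ℝ) - 1 / Real.log (w : ℝ)))
        ≤ M / Real.log u ^ k * (2 * (1 / Real.log (u : ℝ))) := by
          apply mul_le_mul_of_nonneg_left _ (by positivity)
          linarith
      _ = _ := by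
          rw [pow_succ]
          field_simp
  have h4 : 4 * M / Real.log u ^ (k + 1) =
      4 * (M / Real.log u ^ (k + 1)) := by ring
  have h5 : M * (3 / 2) / Real.log u ^ (k + 1) = (3 / 2) * (M / Real.log u ^ (k + 1)) := by ring
  have h6 : 2 * M / Real.log u ^ (k + 1) = 2 * (M / Real.log u ^ (k + 1)) := by ring
  have h7 : 0 ≤ M / Real.log u ^ (k + 1) := by positivity
  rw [h4]
  rw [h5] at t1
  rw [h6] at t3
  linarith

/-- Partial summation, one form. -/
lemma sum_inv_nat_of_count_one (S : ℕ → Prop) [DecidablePred S] (M : ℝ) (hM : 0 ≤ M)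
    (hcount : ∀ n : ℕ, 2 ≤ n →
      (((Finset.Ioc 0 n).filter S).card : ℝ) ≤ M * (n / Real.log n))
    (u w : ℕ) (hu : 2 ≤ u) (huw : u ≤ w) :
    ∑ n ∈ (Finset.Ioc u w).filter S, (1 : ℝ) / n ≤
      M * (2 * (Real.log (Real.log w) - Real.log (Real.log u)) + 1 / Real.log u) := by
  have hu2 : (2 : ℝ) ≤ u := by exact_mod_cast hu
  have hlu : 0 < Real.log u := Real.log_pos (by linarith)
  rw [abel_id S u w (by omega) huw]
  have hw2 : 2 ≤ w := hu.trans huw
  have hw2' : (2 : ℝ) ≤ w := by exact_mod_cast hw2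
  have hlw : Real.log u ≤ Real.log w :=
    Real.log_le_log (by linarith) (by exact_mod_cast huw)
  have t1 : (((Finset.Ioc 0 w).filter S).card : ℝ) / w ≤ M * (1 / Real.log u) := by
    have h1 := hcount w hw2
    have hw0 : (0 : ℝ) < w := by linarith
    rw [div_le_iff₀ hw0]
    refine h1.trans ?_
    have h2 : (w : ℝ) / Real.log w ≤ w / Real.log u :=
      div_le_div_of_nonneg_left hw0.le hlu hlw
    calc M * ((w : ℝ) / Real.log w) ≤ M * (w / Real.log u) := mul_le_mul_of_nonneg_left h2 hM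
      _ = _ := by ring
  have t2 : 0 ≤ (((Finset.Ioc 0 u).filter S).card : ℝ) / u := by positivity
  have t3 : ∑ n ∈ Finset.Ico u w, (((Finset.Ioc 0 n).filter S).card : ℝ) * (1 / n - 1 / (n + 1)) ≤
      M * (2 * (Real.log (Real.log w) - Real.log (Real.log u))) := by
    have h1 : ∀ n ∈ Finset.Ico u w,
        (((Finset.Ioc 0 n).filter S).card : ℝ) * (1 / n - 1 / (n + 1)) ≤
          M * (2 * ((-Real.log (Real.log (n : ℝ))) - (-Real.log (Real.log ((n + 1 : ℕ) : ℝ))))) := by
      intro n hn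
      rw [Finset.mem_Ico] at hn
      have hn2 : 2 ≤ n := hu.trans hn.1
      have hn2' : (2 : ℝ) ≤ n := by exact_mod_cast hn2
      have hn0 : (0 : ℝ) < n := by linarith
      have hln : 0 < Real.log n := Real.log_pos (by linarith)
      have h2 : (1 : ℝ) / n - 1 / (n + 1) = 1 / (n * (n + 1)) := by
        field_simp
        ring
      rw [h2]
      calc (((Finset.Ioc 0 n).filter S).card : ℝ) * (1 / (n * (n + 1)))
          ≤ (M * (n / Real.log n)) * (1 / (n * (n + 1))) :=
            mul_le_mul_of_nonneg_right (hcount n hn2) (by positivity)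
        _ = M * (1 / (((n : ℝ) + 1) * Real.log n)) := by
            field_simp
        _ ≤ _ := by
            apply mul_le_mul_of_nonneg_left _ hM
            have := loglog_telescope n hn2
            linarith
    refine (Finset.sum_le_sum h1).trans ?_
    rw [← Finset.mul_sum, ← Finset.mul_sum,
      telescope (fun n => -Real.log (Real.log ((n : ℕ) : ℝ))) u w huw]
    apply le_of_eq
    ring
  linarith

/-! ### The sieve corollaries -/

/-- natural number version of the sieve for `n ≥ 2` -/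
lemma linear_sieve_nat (k : ℕ) (hk : 1 ≤ k) : ∃ C : ℝ, 0 < C ∧
    ∀ (a b : Fin k → ℕ) (E : ℕ), E ≠ 0 → (∀ i, a i ∣ E) →
      (∀ i j, i ≠ j → ((a i : ℤ) * b j - (a j : ℤ) * b i) ∣ (E : ℤ)) → ∀ n : ℕ, 2 ≤ n →
      (((Finset.Ioc 0 n).filter (fun n => ∀ i, (a i * n + b i).Prime)).card : ℝ) ≤
        (C * ((E : ℝ) / Nat.totient E) ^ k) * (n / Real.log n ^ k) := by
  obtain ⟨C, hC, h⟩ := linear_sieve k hk
  refine ⟨C, hC, fun a b E hE ha hab n hn => ?_⟩
  have h1 := h a b E hE ha hab n (by exact_mod_cast hn)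
  rw [Nat.floor_natCast] at h1
  refine h1.trans (le_of_eq ?_)
  ring

/-- **Brun–Titchmarsh type bound** (counting `n` with `a n + b` prime). -/
theorem sieve_one : ∃ C : ℝ, 0 < C ∧ ∀ (a b : ℕ), 1 ≤ a → ∀ n : ℕ, 2 ≤ n →
    (((Finset.Ioc 0 n).filter (fun m => (a * m + b).Prime)).card : ℝ) ≤
      C * ((a : ℝ) / Nat.totient a) * (n / Real.log n) := by
  obtain ⟨C, hC, h⟩ := linear_sieve_nat 1 le_rfl
  refine ⟨C, hC, fun a b ha n hn => ?_⟩
  have h1 := h (fun _ => a) (fun _ => b) a (by omega) (fun _ => dvd_rfl)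
    (fun i j hij => absurd (Subsingleton.elim i j) hij) n hn
  simp only [pow_one] at h1
  refine le_trans ?_ h1
  apply le_of_eq
  congr 2
  ext m
  simp

/-- two forms: `R` and `A R + 1` prime -/
theorem sieve_two : ∃ C : ℝ, 0 < C ∧ ∀ (A : ℕ), 1 ≤ A → ∀ n : ℕ, 2 ≤ n →
    (((Finset.Ioc 0 n).filter (fun R => R.Prime ∧ (A * R + 1).Prime)).card : ℝ) ≤
      C * ((A : ℝ) / Nat.totient A) ^ 2 * (n / Real.log n ^ 2) := by
  obtain ⟨C, hC, h⟩ := linear_sieve_nat 2 (by norm_num)
  refine ⟨C, hC, fun A hA n hn => ?_⟩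
  have h1 := h ![1, A] ![0, 1] A (by omega)
    (by intro i; fin_cases i <;> simp)
    (by
      intro i j hij
      fin_cases i <;> fin_cases j <;> simp at hij ⊢) n hn
  refine le_trans ?_ h1
  apply le_of_eq
  congr 2
  ext m
  simp [Fin.forall_fin_two]

/-- three forms: `R`, `A R + 1` and `B R + 1` prime, `A ≠ B`. -/
theorem sieve_three : ∃ C : ℝ, 0 < C ∧ ∀ (A B : ℕ), 1 ≤ A → 1 ≤ B → A ≠ B → ∀ n : ℕ, 2 ≤ n →
    (((Finset.Ioc 0 n).filter
      (fun R => R.Prime ∧ (A * R + 1).Prime ∧ (B * R + 1).Prime)).card : ℝ) ≤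
      C * (((A * B * ((A : ℤ) - B).natAbs : ℕ) : ℝ) /
        Nat.totient (A * B * ((A : ℤ) - B).natAbs)) ^ 3 * (n / Real.log n ^ 3) := by
  obtain ⟨C, hC, h⟩ := linear_sieve_nat 3 (by norm_num)
  refine ⟨C, hC, fun A B hA hB hAB n hn => ?_⟩
  have hne : ((A : ℤ) - B).natAbs ≠ 0 := by
    rw [Ne, Int.natAbs_eq_zero]
    omega
  have hd1 : ((A : ℤ) - B) ∣ ((A * B * ((A : ℤ) - B).natAbs : ℕ) : ℤ) := by
    have h2 : ((A : ℤ) - B) ∣ ((((A : ℤ) - B).natAbs : ℕ) : ℤ) := Int.dvd_natAbs.2 dvd_rfl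
    rw [Nat.cast_mul]
    exact Dvd.dvd.mul_left h2 _
  have hd2 : ((B : ℤ) - A) ∣ ((A * B * ((A : ℤ) - B).natAbs : ℕ) : ℤ) := by
    have : ((B : ℤ) - A) = -((A : ℤ) - B) := by ring
    rw [this, neg_dvd]
    exact hd1
  have h1 := h ![1, A, B] ![0, 1, 1] (A * B * ((A : ℤ) - B).natAbs)
    (Nat.mul_ne_zero (Nat.mul_ne_zero (by omega) (by omega)) hne)
    (by
      intro i
      fin_cases i
      · exact one_dvd _
      · exact Dvd.dvd.mul_right (dvd_mul_right _ _) _
      · exact Dvd.dvd.mul_right (dvd_mul_left _ _) _)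
    (by
      intro i j hij
      fin_cases i <;> fin_cases j <;> simp at hij ⊢
      · simpa using hd1
      · simpa using hd2) n hn
  refine le_trans ?_ h1
  apply le_of_eq
  congr 2
  ext m
  simp [Fin.forall_fin_succ]

/-- weighted version, one form -/
theorem sieve_one_inv : ∃ C : ℝ, 0 < C ∧ ∀ (a b : ℕ), 1 ≤ a → ∀ u w : ℕ, 2 ≤ u → u ≤ w →
    ∑ m ∈ (Finset.Ioc u w).filter (fun m => (a * m + b).Prime), (1 : ℝ) / m ≤
      C * ((a : ℝ) / Nat.totient a) *
        (2 * (Real.log (Real.log w) - Real.log (Real.log u)) + 1 / Real.log u) := by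
  obtain ⟨C, hC, h⟩ := sieve_one
  refine ⟨C, hC, fun a b ha u w hu huw => ?_⟩
  exact sum_inv_nat_of_count_one _ (C * ((a : ℝ) / Nat.totient a)) (by positivity)
    (fun n hn => h a b ha n hn) u w hu huw

/-- weighted version, two forms: saves one logarithm. -/
theorem sieve_two_inv : ∃ C : ℝ, 0 < C ∧ ∀ (A : ℕ), 1 ≤ A → ∀ u w : ℕ, 2 ≤ u →
    ∑ R ∈ (Finset.Ioc u w).filter (fun R => R.Prime ∧ (A * R + 1).Prime), (1 : ℝ) / R ≤
      C * ((A : ℝ) / Nat.totient A) ^ 2 / Real.log u := by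
  obtain ⟨C, hC, h⟩ := sieve_two
  refine ⟨4 * C, by positivity, fun A hA u w hu => ?_⟩
  have h1 := sum_inv_nat_of_count _ 0 (C * ((A : ℝ) / Nat.totient A) ^ 2) (by positivity)
    (fun n hn => h A hA n hn) u w hu
  refine h1.trans (le_of_eq ?_)
  simp only [zero_add, pow_one]
  ring

/-- weighted version, three forms: saves two logarithms. -/
theorem sieve_three_inv : ∃ C : ℝ, 0 < C ∧ ∀ (A B : ℕ), 1 ≤ A → 1 ≤ B → A ≠ B →
    ∀ u w : ℕ, 2 ≤ u →
    ∑ R ∈ (Finset.Ioc u w).filter
      (fun R => R.Prime ∧ (A * R + 1).Prime ∧ (B * R + 1).Prime), (1 : ℝ) / R ≤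
      C * (((A * B * ((A : ℤ) - B).natAbs : ℕ) : ℝ) /
        Nat.totient (A * B * ((A : ℤ) - B).natAbs)) ^ 3 / Real.log u ^ 2 := by
  obtain ⟨C, hC, h⟩ := sieve_three
  refine ⟨4 * C, by positivity, fun A B hA hB hAB u w hu => ?_⟩
  have h1 := sum_inv_nat_of_count _ 1 (C * (((A * B * ((A : ℤ) - B).natAbs : ℕ) : ℝ) /
        Nat.totient (A * B * ((A : ℤ) - B).natAbs)) ^ 3) (by positivity)
    (fun n hn => h A B hA hB hAB n hn) u w hu
  refine h1.trans (le_of_eq ?_)
  norm_num
  ring


end Crest.Agent.Lib.LinSieve
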