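import Mathlib
import Crest.Agent.Lib.Mertens

-- ▼ part Lib/LinSieve/Selberg
section

/-! Selberg's upper bound sieve (main theorem), on top of Mathlib's `BoundingSieve`. -/

set_option autoImplicit false

namespace Crest.Agent.Lib.LinSieve

open Finset ArithmeticFunction BoundingSieve

open scoped ArithmeticFunction.Moebius

variable (s : BoundingSieve)

/-- Selberg's sum `G(z) = ∑_{l ∣ P, l ≤ z} g(l)`. -/
noncomputable def selG (z : ℕ) : ℝ :=
  ∑ l ∈ s.prodPrimes.divisors with l ≤ z, s.selbergTerms l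

/-- inner sum -/
noncomputable def selGd (z d : ℕ) : ℝ :=
  ∑ m ∈ s.prodPrimes.divisors with (d * m ≤ z ∧ Nat.Coprime m d), s.selbergTerms m

/-- Selberg's weights. -/
noncomputable def selW (z d : ℕ) : ℝ :=
  if d ∣ s.prodPrimes then
    (μ d : ℝ) * (s.nu d)⁻¹ * s.selbergTerms d * (selG s z)⁻¹ * selGd s z d else 0

lemma selbergTerms_one : s.selbergTerms 1 = 1 :=
  (selbergTerms_isMultiplicative (s := s)).map_one

lemma selG_pos {z : ℕ} (hz : 1 ≤ z) : 0 < selG s z := by
  unfold selG
  apply Finset.sum_pos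
  · intro l hl
    rw [Finset.mem_filter, Nat.mem_divisors] at hl
    exact selbergTerms_pos hl.1.1
  · refine ⟨1, ?_⟩
    rw [Finset.mem_filter, Nat.mem_divisors]
    exact ⟨⟨one_dvd _, prodPrimes_ne_zero⟩, hz⟩

lemma selGd_nonneg (z d : ℕ) : 0 ≤ selGd s z d := by
  unfold selGd
  apply Finset.sum_nonneg
  intro m hm
  rw [Finset.mem_filter, Nat.mem_divisors] at hm
  exact (selbergTerms_pos hm.1.1).le

lemma selGd_one (z : ℕ) : selGd s z 1 = selG s z := by
  unfold selGd selG
  apply Finset.sum_congr _ (fun _ _ => rfl)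
  ext m
  simp

lemma selW_one {z : ℕ} (hz : 1 ≤ z) : selW s z 1 = 1 := by
  unfold selW
  rw [if_pos (one_dvd _), selGd_one, selbergTerms_one]
  have h := (selG_pos s hz).ne'
  have h1 : s.nu 1 = 1 := s.nu_mult.map_one
  rw [h1]
  simp
  field_simp

/-- `g(d) * ∑_{m, (m,d)=1, dm ≤ z} g(m) = ∑_{n ≤ z, d ∣ n} g(n)`. -/
lemma g_mul_selGd {z d : ℕ} (hd : d ∣ s.prodPrimes) :
    s.selbergTerms d * selGd s z d =
      ∑ n ∈ s.prodPrimes.divisors with (n ≤ z ∧ d ∣ n), s.selbergTerms n := by
  have hP := s.prodPrimes_squarefree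
  have hP0 : s.prodPrimes ≠ 0 := prodPrimes_ne_zero
  have hd0 : 0 < d := Nat.pos_of_ne_zero (ne_zero_of_dvd_ne_zero hP0 hd)
  unfold selGd
  rw [Finset.mul_sum]
  apply Finset.sum_bij' (fun m _ => d * m) (fun n _ => n / d)
  · intro m hm
    rw [Finset.mem_filter, Nat.mem_divisors] at hm
    rw [Finset.mem_filter, Nat.mem_divisors]
    refine ⟨⟨?_, hP0⟩, hm.2.1, dvd_mul_right _ _⟩
    exact Nat.Coprime.mul_dvd_of_dvd_of_dvd hm.2.2.symm hd hm.1.1
  · intro n hn
    rw [Finset.mem_filter, Nat.mem_divisors] at hn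
    obtain ⟨⟨hnP, _⟩, hnz, hdn⟩ := hn
    obtain ⟨m, rfl⟩ := hdn
    rw [Finset.mem_filter, Nat.mem_divisors, Nat.mul_div_cancel_left _ hd0]
    refine ⟨⟨(dvd_mul_left _ _).trans hnP, hP0⟩, hnz, ?_⟩
    exact (Nat.coprime_of_squarefree_mul (hP.squarefree_of_dvd hnP)).symm
  · intro m hm
    exact Nat.mul_div_cancel_left _ hd0
  · intro n hn
    rw [Finset.mem_filter, Nat.mem_divisors] at hn
    exact Nat.mul_div_cancel' hn.2.2
  · intro m hm
    rw [Finset.mem_filter, Nat.mem_divisors] at hm
    rw [(selbergTerms_isMultiplicative (s := s)).map_mul_of_coprime hm.2.2.symm]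

/-- The diagonalised variables. -/
lemma sum_nu_selW {z l : ℕ} (hl : l ∣ s.prodPrimes) :
    (∑ d ∈ s.prodPrimes.divisors, if l ∣ d then s.nu d * selW s z d else 0) =
      if l ≤ z then (μ l : ℝ) * s.selbergTerms l * (selG s z)⁻¹ else 0 := by
  have hP := s.prodPrimes_squarefree
  have hP0 : s.prodPrimes ≠ 0 := prodPrimes_ne_zero
  have hl0 : 0 < l := Nat.pos_of_ne_zero (ne_zero_of_dvd_ne_zero hP0 hl)
  have h1 : ∀ d ∈ s.prodPrimes.divisors,
      (if l ∣ d then s.nu d * selW s z d else 0) =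
        (selG s z)⁻¹ * ∑ n ∈ s.prodPrimes.divisors,
          if (l ∣ d ∧ n ≤ z ∧ d ∣ n) then (μ d : ℝ) * s.selbergTerms n else 0 := by
    intro d hd
    rw [Nat.mem_divisors] at hd
    by_cases hld : l ∣ d
    · rw [if_pos hld]
      unfold selW
      rw [if_pos hd.1]
      have hnu := nu_ne_zero hd.1
      have h2 := g_mul_selGd s (z := z) hd.1
      calc s.nu d * ((μ d : ℝ) * (s.nu d)⁻¹ * s.selbergTerms d * (selG s z)⁻¹ * selGd s z d)
          = (selG s z)⁻¹ * ((μ d : ℝ) * (s.selbergTerms d * selGd s z d)) := by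
            field_simp
        _ = _ := by
          rw [h2, Finset.mul_sum, Finset.sum_filter]
          congr 1
          apply Finset.sum_congr rfl
          intro n hn
          simp [hld]
    · rw [if_neg hld]
      simp [hld]
  rw [Finset.sum_congr rfl h1, ← Finset.mul_sum, Finset.sum_comm]
  have h3 : ∀ n ∈ s.prodPrimes.divisors,
      (∑ d ∈ s.prodPrimes.divisors,
        if (l ∣ d ∧ n ≤ z ∧ d ∣ n) then (μ d : ℝ) * s.selbergTerms n else 0) =
      if n = l then (if l ≤ z then (μ l : ℝ) * s.selbergTerms l else 0) else 0 := by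
    intro n hn
    rw [Nat.mem_divisors] at hn
    have hnsq : Squarefree n := hP.squarefree_of_dvd hn.1
    have hn0 : n ≠ 0 := hnsq.ne_zero
    by_cases hnz : n ≤ z
    · by_cases hln : l ∣ n
      · -- sum over d with l ∣ d ∣ n of μ d
        obtain ⟨q, rfl⟩ := hln
        have hq0 : 0 < q := Nat.pos_of_ne_zero (by rintro rfl; simp at hn0)
        have hcop : Nat.Coprime l q := Nat.coprime_of_squarefree_mul hnsq
        have h4 : (∑ d ∈ s.prodPrimes.divisors,
            if (l ∣ d ∧ l * q ≤ z ∧ d ∣ l * q) then (μ d : ℝ) * s.selbergTerms (l * q) else 0) =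
            (∑ e ∈ q.divisors, (μ (l * e) : ℝ)) * s.selbergTerms (l * q) := by
          rw [← Finset.sum_filter, Finset.sum_mul]
          symm
          apply Finset.sum_bij' (fun e _ => l * e) (fun d _ => d / l)
          · intro e he
            rw [Nat.mem_divisors] at he
            rw [Finset.mem_filter, Nat.mem_divisors]
            have : l * e ∣ l * q := mul_dvd_mul_left l he.1
            exact ⟨⟨this.trans hn.1, hP0⟩, dvd_mul_right _ _, hnz, this⟩
          · intro d hd
            rw [Finset.mem_filter, Nat.mem_divisors] at hd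
            obtain ⟨⟨_, _⟩, ⟨e, rfl⟩, _, h5⟩ := hd
            rw [Nat.mul_div_cancel_left _ hl0, Nat.mem_divisors]
            exact ⟨(mul_dvd_mul_iff_left hl0.ne').1 h5, hq0.ne'⟩
          · intro e he
            exact Nat.mul_div_cancel_left _ hl0
          · intro d hd
            rw [Finset.mem_filter, Nat.mem_divisors] at hd
            exact Nat.mul_div_cancel' hd.2.1
          · intro e he
            rfl
        rw [h4]
        have h5 : (∑ e ∈ q.divisors, (μ (l * e) : ℝ)) = (μ l : ℝ) * (if q = 1 then 1 else 0) := by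
          have h6 : ∀ e ∈ q.divisors, (μ (l * e) : ℝ) = (μ l : ℝ) * (μ e : ℝ) := by
            intro e he
            rw [Nat.mem_divisors] at he
            have hc : Nat.Coprime l e := Nat.Coprime.coprime_dvd_right he.1 hcop
            rw [isMultiplicative_moebius.map_mul_of_coprime hc]
            push_cast
            ring
          rw [Finset.sum_congr rfl h6, ← Finset.mul_sum]
          congr 1
          have h7 := congrArg (fun f : ArithmeticFunction ℤ => f q) moebius_mul_coe_zeta
          simp only [ArithmeticFunction.coe_mul_zeta_apply, ArithmeticFunction.one_apply] at h7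
          have h8 : (((∑ e ∈ q.divisors, μ e : ℤ)) : ℝ) = ((if q = 1 then 1 else 0 : ℤ) : ℝ) := by
            rw [h7]
          push_cast at h8
          exact h8
        rw [h5]
        by_cases hq1 : q = 1
        · subst hq1
          simp only [mul_one, if_true]
          rw [mul_one] at hnz
          rw [if_pos hnz]
        · rw [if_neg hq1]
          have : l * q ≠ l := by
            intro h
            apply hq1
            have := Nat.eq_of_mul_eq_mul_left hl0 (h.trans (mul_one l).symm)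
            exact this
          rw [if_neg this]
          simp
      · have h8 : n ≠ l := by
          rintro rfl
          exact hln dvd_rfl
        rw [if_neg h8]
        apply Finset.sum_eq_zero
        intro d hd
        rw [if_neg]
        rintro ⟨h9, -, h10⟩
        exact hln (h9.trans h10)
    · have h9 : (∑ d ∈ s.prodPrimes.divisors,
        if (l ∣ d ∧ n ≤ z ∧ d ∣ n) then (μ d : ℝ) * s.selbergTerms n else 0) = 0 := by
        apply Finset.sum_eq_zero
        intro d hd
        rw [if_neg]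
        rintro ⟨-, h10, -⟩
        exact hnz h10
      rw [h9]
      by_cases hnl : n = l
      · subst hnl
        rw [if_pos rfl, if_neg hnz]
      · rw [if_neg hnl]
  rw [Finset.sum_congr rfl h3, Finset.sum_ite_eq' , if_pos (Nat.mem_divisors.2 ⟨hl, hP0⟩)]
  by_cases hlz : l ≤ z
  · rw [if_pos hlz, if_pos hlz]
    ring
  · rw [if_neg hlz, if_neg hlz, mul_zero]

lemma mainSum_selW {z : ℕ} (hz : 1 ≤ z) :
    s.mainSum (lambdaSquared (selW s z)) = (selG s z)⁻¹ := by
  rw [mainSum_lambdaSquared_eq_sum_mul_sum_sq]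
  have hG := (selG_pos s hz).ne'
  have h1 : ∀ l ∈ s.prodPrimes.divisors, (s.selbergTerms l)⁻¹ *
      (∑ d ∈ s.prodPrimes.divisors, if l ∣ d then s.nu d * selW s z d else 0) ^ 2 =
      (selG s z)⁻¹ ^ 2 * (if l ≤ z then s.selbergTerms l else 0) := by
    intro l hl
    rw [Nat.mem_divisors] at hl
    rw [sum_nu_selW s hl.1]
    have hg := (selbergTerms_pos hl.1).ne'
    have hsq := s.prodPrimes_squarefree.squarefree_of_dvd hl.1
    have hmu : (μ l : ℝ) ^ 2 = 1 := by
      have := (moebius_sq_eq_one_of_squarefree hsq)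
      exact_mod_cast this
    split_ifs
    · rw [mul_pow, mul_pow, hmu]
      field_simp
    · simp
  rw [Finset.sum_congr rfl h1, ← Finset.mul_sum, ← Finset.sum_filter]
  change (selG s z)⁻¹ ^ 2 * selG s z = _
  field_simp

lemma abs_selW_le {z : ℕ} (hz : 1 ≤ z) (d : ℕ) : |selW s z d| ≤ 1 := by
  unfold selW
  split_ifs with hd
  swap
  · simp
  have hP := s.prodPrimes_squarefree
  have hP0 : s.prodPrimes ≠ 0 := prodPrimes_ne_zero
  have hd0 : 0 < d := Nat.pos_of_ne_zero (ne_zero_of_dvd_ne_zero hP0 hd)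
  have hG := selG_pos s hz
  have hnu := nu_pos_of_dvd_prodPrimes hd
  have hg := selbergTerms_pos hd
  have hGd := selGd_nonneg s z d
  have hsq := hP.squarefree_of_dvd hd
  have hmu : |(μ d : ℝ)| = 1 := by
    have := (moebius_sq_eq_one_of_squarefree hsq)
    have h2 : (μ d : ℝ) ^ 2 = 1 := by exact_mod_cast this
    have h3 : |(μ d : ℝ)| ^ 2 = 1 := by rw [sq_abs, h2]
    have h4 : 0 ≤ |(μ d : ℝ)| := abs_nonneg _
    nlinarith
  rw [abs_mul, abs_mul, abs_mul, abs_mul, hmu, one_mul, abs_of_pos (inv_pos.2 hnu),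
    abs_of_pos hg, abs_of_pos (inv_pos.2 hG), abs_of_nonneg hGd]
  -- key inequality
  have key : (s.selbergTerms d * (s.nu d)⁻¹) * selGd s z d ≤ selG s z := by
    rw [← sum_divisors_selbergTerms_eq_selbergTerms_mul_nu_inv hd, ← Finset.sum_filter,
      Nat.divisors_filter_dvd_of_dvd prodPrimes_ne_zero hd, Finset.sum_mul]
    have h1 : ∀ k ∈ d.divisors, s.selbergTerms k * selGd s z d ≤
        ∑ n ∈ s.prodPrimes.divisors with (n ≤ z ∧ Nat.gcd n d = k), s.selbergTerms n := by
      intro k hk
      rw [Nat.mem_divisors] at hk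
      have hk0 : 0 < k := Nat.pos_of_ne_zero (ne_zero_of_dvd_ne_zero hk.2 hk.1)
      have hkP := hk.1.trans hd
      unfold selGd
      rw [Finset.mul_sum]
      have h2 : ∀ m ∈ s.prodPrimes.divisors.filter (fun m => d * m ≤ z ∧ Nat.Coprime m d),
          s.selbergTerms k * s.selbergTerms m = s.selbergTerms (k * m) := by
        intro m hm
        rw [Finset.mem_filter, Nat.mem_divisors] at hm
        rw [(selbergTerms_isMultiplicative (s := s)).map_mul_of_coprime]
        exact (Nat.Coprime.coprime_dvd_right hk.1 hm.2.2).symm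
      rw [Finset.sum_congr rfl h2]
      have h3 : ∑ m ∈ s.prodPrimes.divisors.filter (fun m => d * m ≤ z ∧ Nat.Coprime m d),
          s.selbergTerms (k * m) =
          ∑ n ∈ (s.prodPrimes.divisors.filter (fun m => d * m ≤ z ∧ Nat.Coprime m d)).image
            (fun m => k * m), s.selbergTerms n := by
        rw [Finset.sum_image]
        intro a _ b _ hab
        exact Nat.eq_of_mul_eq_mul_left hk0 hab
      rw [h3]
      apply Finset.sum_le_sum_of_subset_of_nonneg
      · intro n hn
        rw [Finset.mem_image] at hn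
        obtain ⟨m, hm, rfl⟩ := hn
        rw [Finset.mem_filter, Nat.mem_divisors] at hm
        rw [Finset.mem_filter, Nat.mem_divisors]
        refine ⟨⟨?_, hP0⟩, ?_, ?_⟩
        · exact Nat.Coprime.mul_dvd_of_dvd_of_dvd
            (Nat.Coprime.coprime_dvd_right hk.1 hm.2.2).symm hkP hm.1.1
        · exact (Nat.mul_le_mul_right m (Nat.le_of_dvd hd0 hk.1)).trans hm.2.1
        · rw [Nat.Coprime.gcd_mul_right_cancel k hm.2.2]
          exact Nat.gcd_eq_left hk.1
      · intro n hn _
        rw [Finset.mem_filter, Nat.mem_divisors] at hn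
        exact (selbergTerms_pos hn.1.1).le
    refine (Finset.sum_le_sum h1).trans ?_
    rw [selG]
    have h4 : ∑ k ∈ d.divisors, ∑ n ∈ s.prodPrimes.divisors with (n ≤ z ∧ Nat.gcd n d = k),
        s.selbergTerms n = ∑ n ∈ s.prodPrimes.divisors with n ≤ z, s.selbergTerms n := by
      rw [← Finset.sum_fiberwise_of_maps_to (s := s.prodPrimes.divisors.filter (fun n => n ≤ z))
        (t := d.divisors) (g := fun n => Nat.gcd n d)]
      · apply Finset.sum_congr rfl
        intro k _
        rw [Finset.filter_filter]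
      · intro n _
        rw [Nat.mem_divisors]
        exact ⟨Nat.gcd_dvd_right _ _, hd0.ne'⟩
    rw [h4]
  have h5 : (s.nu d)⁻¹ * s.selbergTerms d * (selG s z)⁻¹ * selGd s z d =
      ((s.selbergTerms d * (s.nu d)⁻¹) * selGd s z d) / selG s z := by
    field_simp
  rw [h5, div_le_one hG]
  exact key

lemma selW_eq_zero {z d : ℕ} (hdz : z < d) : selW s z d = 0 := by
  unfold selW
  split_ifs with hd
  · have : selGd s z d = 0 := by
      unfold selGd
      apply Finset.sum_eq_zero
      intro m hm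
      rw [Finset.mem_filter, Nat.mem_divisors] at hm
      exfalso
      have hm0 : 0 < m := Nat.pos_of_ne_zero (ne_zero_of_dvd_ne_zero hm.1.2 hm.1.1)
      have : d ≤ d * m := Nat.le_mul_of_pos_right d hm0
      omega
    rw [this, mul_zero]
  · rfl

/-- **Selberg's upper bound sieve.** -/
theorem selberg_bound {z : ℕ} (hz : 1 ≤ z) :
    s.siftedSum ≤ s.totalMass * (selG s z)⁻¹ +
      ∑ d1 ∈ s.prodPrimes.divisors with d1 ≤ z, ∑ d2 ∈ s.prodPrimes.divisors with d2 ≤ z,
        |s.rem (Nat.lcm d1 d2)| := by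
  have h1 := siftedSum_le_mainSum_errSum_of_upperMoebius (s := s) _
    (upperMoebius_lambdaSquared (selW s z) (selW_one s hz))
  rw [mainSum_selW s hz] at h1
  refine h1.trans ?_
  gcongr
  unfold BoundingSieve.errSum
  have hP0 : s.prodPrimes ≠ 0 := prodPrimes_ne_zero
  have h2 : ∀ d ∈ s.prodPrimes.divisors, |lambdaSquared (selW s z) d| * |s.rem d| ≤
      ∑ d1 ∈ s.prodPrimes.divisors with d1 ≤ z, ∑ d2 ∈ s.prodPrimes.divisors with d2 ≤ z,
        if d = Nat.lcm d1 d2 then |s.rem (Nat.lcm d1 d2)| else 0 := by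
    intro d hd
    rw [Nat.mem_divisors] at hd
    have h3 : |lambdaSquared (selW s z) d| ≤
        ∑ d1 ∈ s.prodPrimes.divisors with d1 ≤ z, ∑ d2 ∈ s.prodPrimes.divisors with d2 ≤ z,
          if d = Nat.lcm d1 d2 then (1 : ℝ) else 0 := by
      unfold lambdaSquared
      refine (Finset.abs_sum_le_sum_abs _ _).trans ?_
      have h4 : ∀ d1 ∈ d.divisors, |∑ d2 ∈ d.divisors,
          if d = Nat.lcm d1 d2 then selW s z d1 * selW s z d2 else 0| ≤
          if d1 ≤ z then ∑ d2 ∈ d.divisors with d2 ≤ z,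
            (if d = Nat.lcm d1 d2 then (1 : ℝ) else 0) else 0 := by
        intro d1 hd1
        by_cases h5 : d1 ≤ z
        · rw [if_pos h5, Finset.sum_filter]
          refine (Finset.abs_sum_le_sum_abs _ _).trans (Finset.sum_le_sum fun d2 _ => ?_)
          by_cases h6 : d2 ≤ z
          · rw [if_pos h6]
            by_cases h7 : d = Nat.lcm d1 d2
            · rw [if_pos h7, if_pos h7, abs_mul]
              have a1 := abs_selW_le s hz d1
              have a2 := abs_selW_le s hz d2
              have a3 := abs_nonneg (selW s z d1)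
              have a4 := abs_nonneg (selW s z d2)
              nlinarith
            · rw [if_neg h7, if_neg h7, abs_zero]
          · rw [if_neg h6, selW_eq_zero s (not_le.1 h6), mul_zero]
            simp
        · rw [if_neg h5]
          have : ∀ d2 ∈ d.divisors,
              (if d = Nat.lcm d1 d2 then selW s z d1 * selW s z d2 else 0) = 0 := by
            intro d2 _
            rw [selW_eq_zero s (not_le.1 h5), zero_mul]
            simp
          rw [Finset.sum_congr rfl this]
          simp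
      refine (Finset.sum_le_sum h4).trans ?_
      rw [← Finset.sum_filter]
      have hsub : d.divisors ⊆ s.prodPrimes.divisors := Nat.divisors_subset_of_dvd hP0 hd.1
      have hsub2 : d.divisors.filter (fun x => x ≤ z) ⊆
          s.prodPrimes.divisors.filter (fun x => x ≤ z) := Finset.filter_subset_filter _ hsub
      calc ∑ d1 ∈ d.divisors with d1 ≤ z, ∑ d2 ∈ d.divisors with d2 ≤ z,
            (if d = Nat.lcm d1 d2 then (1 : ℝ) else 0)
          ≤ ∑ d1 ∈ d.divisors with d1 ≤ z, ∑ d2 ∈ s.prodPrimes.divisors with d2 ≤ z,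
            (if d = Nat.lcm d1 d2 then (1 : ℝ) else 0) := by
            apply Finset.sum_le_sum
            intro d1 _
            apply Finset.sum_le_sum_of_subset_of_nonneg hsub2
            intro i _ _
            split_ifs <;> norm_num
        _ ≤ _ := by
            apply Finset.sum_le_sum_of_subset_of_nonneg hsub2
            intro i _ _
            apply Finset.sum_nonneg
            intro j _
            split_ifs <;> norm_num
    calc |lambdaSquared (selW s z) d| * |s.rem d| ≤
        (∑ d1 ∈ s.prodPrimes.divisors with d1 ≤ z, ∑ d2 ∈ s.prodPrimes.divisors with d2 ≤ z,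
          if d = Nat.lcm d1 d2 then (1 : ℝ) else 0) * |s.rem d| :=
          mul_le_mul_of_nonneg_right h3 (abs_nonneg _)
      _ = _ := by
        rw [Finset.sum_mul]
        apply Finset.sum_congr rfl
        intro d1 _
        rw [Finset.sum_mul]
        apply Finset.sum_congr rfl
        intro d2 _
        by_cases h7 : d = Nat.lcm d1 d2
        · rw [if_pos h7, if_pos h7, one_mul, ← h7]
        · rw [if_neg h7, if_neg h7, zero_mul]
  refine (Finset.sum_le_sum h2).trans (le_of_eq ?_)
  rw [Finset.sum_comm]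
  apply Finset.sum_congr rfl
  intro d1 hd1
  rw [Finset.sum_comm]
  apply Finset.sum_congr rfl
  intro d2 hd2
  rw [Finset.mem_filter, Nat.mem_divisors] at hd1 hd2
  rw [Finset.sum_ite_eq', if_pos]
  rw [Nat.mem_divisors]
  exact ⟨Nat.lcm_dvd hd1.1.1 hd2.1.1, hP0⟩

end Crest.Agent.Lib.LinSieve
end

-- ▼ part Lib/LinSieve/Count
section

/-! Counting `n ≤ N` with `d ∣ ∏ (a i n + b i)`, `d` squarefree with good prime factors. -/

set_option autoImplicit false

namespace Crest.Agent.Lib.LinSieve

open Finset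

variable {ι : Type} [Fintype ι] [DecidableEq ι]

/-- the product of the linear forms -/
def lform (a b : ι → ℕ) (n : ℕ) : ℕ := ∏ i, (a i * n + b i)

/-- good prime: larger than the number of forms, all slopes invertible, the roots distinct. -/
def Good (a b : ι → ℕ) (p : ℕ) : Prop :=
  p.Prime ∧ Fintype.card ι < p ∧ (∀ i, ¬ p ∣ a i) ∧
    ∀ i j, i ≠ j → ¬ (p : ℤ) ∣ ((a i : ℤ) * b j - (a j : ℤ) * b i)

/-- zeros modulo `d` -/
def zeroSet (a b : ι → ℕ) (d : ℕ) [NeZero d] : Finset (ZMod d) :=
  Finset.univ.filter fun x => ∏ i, ((a i : ZMod d) * x + (b i : ZMod d)) = 0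

lemma card_zeroSet_prime (a b : ι → ℕ) (p : ℕ) [NeZero p] (hp : Good a b p) :
    (zeroSet a b p).card = Fintype.card ι := by
  obtain ⟨hpp, -, ha, hab⟩ := hp
  have : Fact p.Prime := ⟨hpp⟩
  have ha' : ∀ i, (a i : ZMod p) ≠ 0 := fun i h =>
    ha i ((ZMod.natCast_eq_zero_iff _ _).1 h)
  have h1 : zeroSet a b p = Finset.univ.image (fun i => -(b i : ZMod p) * (a i : ZMod p)⁻¹) := by
    ext x
    simp only [zeroSet, Finset.mem_filter, Finset.mem_univ, true_and, Finset.prod_eq_zero_iff,
      Finset.mem_image]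
    constructor
    · rintro ⟨i, hi⟩
      refine ⟨i, ?_⟩
      have h2 : (a i : ZMod p) * x = -(b i : ZMod p) := eq_neg_of_add_eq_zero_left hi
      rw [← h2, mul_comm (a i : ZMod p) x, mul_assoc, mul_inv_cancel₀ (ha' i), mul_one]
    · rintro ⟨i, rfl⟩
      refine ⟨i, ?_⟩
      have := ha' i
      field_simp
      ring
  rw [h1, Finset.card_image_of_injective, Finset.card_univ]
  intro i j hij
  by_contra hne
  apply hab i j hne
  rw [← ZMod.intCast_zmod_eq_zero_iff_dvd _ p]
  push_cast
  have h2 := ha' i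
  have h3 := ha' j
  simp only at hij
  field_simp at hij
  linear_combination hij

lemma card_zeroSet_mul (a b : ι → ℕ) (m n : ℕ) [NeZero m] [NeZero n] [NeZero (m * n)]
    (h : Nat.Coprime m n) :
    (zeroSet a b (m * n)).card = (zeroSet a b m).card * (zeroSet a b n).card := by
  rw [← Finset.card_product]
  let e := ZMod.chineseRemainder h
  apply Finset.card_bij (fun x _ => e x)
  · intro x hx
    simp only [zeroSet, Finset.mem_filter, Finset.mem_univ, true_and, Finset.mem_product] at hx ⊢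
    have h1 := congrArg e hx
    rw [map_prod, map_zero] at h1
    have h2 : ∀ i, e ((a i : ZMod (m * n)) * x + (b i : ZMod (m * n))) =
        (((a i : ZMod m) * (e x).1 + (b i : ZMod m)), ((a i : ZMod n) * (e x).2 + (b i : ZMod n))) := by
      intro i
      rw [map_add, map_mul, map_natCast, map_natCast]
      rfl
    simp only [h2] at h1
    have h3 := congrArg Prod.fst h1
    have h4 := congrArg Prod.snd h1
    rw [Prod.fst_prod] at h3
    rw [Prod.snd_prod] at h4
    exact ⟨h3, h4⟩
  · intro x _ y _ hxy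
    exact e.injective hxy
  · intro y hy
    refine ⟨e.symm y, ?_, e.apply_symm_apply y⟩
    simp only [zeroSet, Finset.mem_filter, Finset.mem_univ, true_and, Finset.mem_product] at hy ⊢
    apply e.injective
    rw [map_prod, map_zero]
    have h2 : ∀ i, e ((a i : ZMod (m * n)) * e.symm y + (b i : ZMod (m * n))) =
        (((a i : ZMod m) * y.1 + (b i : ZMod m)), ((a i : ZMod n) * y.2 + (b i : ZMod n))) := by
      intro i
      rw [map_add, map_mul, map_natCast, map_natCast, e.apply_symm_apply]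
      rfl
    simp only [h2]
    ext
    · rw [Prod.fst_prod]; exact hy.1
    · rw [Prod.snd_prod]; exact hy.2

lemma card_zeroSet_prod (a b : ι → ℕ) (S : Finset ℕ) (hS : ∀ p ∈ S, Good a b p)
    (d : ℕ) [NeZero d] (hd : d = ∏ p ∈ S, p) :
    (zeroSet a b d).card = Fintype.card ι ^ S.card := by
  induction S using Finset.induction_on generalizing d with
  | empty =>
    simp only [Finset.prod_empty] at hd
    subst hd
    simp only [Finset.card_empty, pow_zero]
    rw [zeroSet, Finset.filter_true_of_mem]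
    · simp
    · intro x _
      exact Subsingleton.elim _ _
  | insert p S hp ih =>
    rw [Finset.prod_insert hp] at hd
    have hpg := hS p (Finset.mem_insert_self _ _)
    have hS' : ∀ q ∈ S, Good a b q := fun q hq => hS q (Finset.mem_insert_of_mem hq)
    have : NeZero p := ⟨hpg.1.ne_zero⟩
    have : NeZero (∏ q ∈ S, q) := ⟨Finset.prod_ne_zero_iff.2 fun q hq => (hS' q hq).1.ne_zero⟩
    subst hd
    have hc : Nat.Coprime p (∏ q ∈ S, q) := by
      apply Nat.Coprime.prod_right
      intro q hq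
      rw [Nat.coprime_primes hpg.1 (hS' q hq).1]
      rintro rfl
      exact hp hq
    rw [card_zeroSet_mul a b p _ hc, card_zeroSet_prime a b p hpg, ih hS' _ rfl,
      Finset.card_insert_of_notMem hp, pow_succ, mul_comm]

/-- number of `n ∈ (0, N]` in a fixed residue class. -/
lemma card_class (N d : ℕ) (hd : 0 < d) (v : ℕ) :
    |(((Finset.Ioc 0 N).filter (fun n => n ≡ v [MOD d])).card : ℝ) - N / d| ≤ 1 := by
  have h := Nat.Ioc_filter_modEq_card 0 N hd v
  have hd' : (0 : ℚ) < d := by exact_mod_cast hd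
  have h2 : ((((Finset.Ioc 0 N).filter (fun n => n ≡ v [MOD d])).card : ℤ) : ℚ) =
      max (((⌊((N : ℚ) - v) / d⌋ - ⌊((0 : ℕ) - v : ℚ) / d⌋ : ℤ)) : ℚ) 0 := by
    rw [h]
    push_cast
    rfl
  have h3 : |((((Finset.Ioc 0 N).filter (fun n => n ≡ v [MOD d])).card : ℤ) : ℚ) - N / d| ≤ 1 := by
    rw [h2]
    have f1 := Int.floor_le (((N : ℚ) - v) / d)
    have f2 := Int.lt_floor_add_one (((N : ℚ) - v) / d)
    have f3 := Int.floor_le (((0 : ℕ) - v : ℚ) / d)
    have f4 := Int.lt_floor_add_one (((0 : ℕ) - v : ℚ) / d)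
    have e1 : ((N : ℚ) - v) / d - ((0 : ℕ) - v : ℚ) / d = N / d := by
      push_cast
      ring
    have hN : (0 : ℚ) ≤ N / d := by positivity
    push_cast at f1 f2 f3 f4 e1 ⊢
    rw [abs_le]
    constructor
    · rcases le_max_left ((⌊((N : ℚ) - v) / d⌋ : ℚ) - ⌊(0 - v : ℚ) / d⌋) 0 with h5
      linarith
    · rw [sub_le_iff_le_add]
      apply max_le
      · linarith
      · linarith
  have h4 : (((|((((Finset.Ioc 0 N).filter (fun n => n ≡ v [MOD d])).card : ℤ) : ℚ) - N / d|) : ℚ) : ℝ)
      ≤ ((1 : ℚ) : ℝ) := by exact_mod_cast h3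
  push_cast at h4
  exact h4

/-- main counting lemma -/
theorem card_dvd_lform (a b : ι → ℕ) (N d : ℕ) (hd : Squarefree d)
    (hg : ∀ p, p.Prime → p ∣ d → Good a b p) :
    |(((Finset.Ioc 0 N).filter (fun n => d ∣ lform a b n)).card : ℝ) -
        (Fintype.card ι : ℝ) ^ d.primeFactors.card * N / d| ≤
      (Fintype.card ι : ℝ) ^ d.primeFactors.card := by
  have hd0 : d ≠ 0 := hd.ne_zero
  have : NeZero d := ⟨hd0⟩
  have hz : (zeroSet a b d).card = Fintype.card ι ^ d.primeFactors.card :=
    card_zeroSet_prod a b d.primeFactors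
      (fun p hp => hg p (Nat.prime_of_mem_primeFactors hp) (Nat.dvd_of_mem_primeFactors hp)) d
      (Nat.prod_primeFactors_of_squarefree hd).symm
  have h1 : ((Finset.Ioc 0 N).filter (fun n => d ∣ lform a b n)).card =
      ∑ x ∈ zeroSet a b d, ((Finset.Ioc 0 N).filter (fun n => n ≡ x.val [MOD d])).card := by
    rw [Finset.card_eq_sum_card_fiberwise (f := fun n : ℕ => (n : ZMod d)) (t := zeroSet a b d)]
    · apply Finset.sum_congr rfl
      intro x hx
      congr 1
      ext n
      simp only [Finset.mem_filter]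
      constructor
      · rintro ⟨⟨h2, h3⟩, h4⟩
        refine ⟨h2, ?_⟩
        rw [← ZMod.natCast_eq_natCast_iff, h4, ZMod.natCast_zmod_val]
      · rintro ⟨h2, h3⟩
        rw [← ZMod.natCast_eq_natCast_iff, ZMod.natCast_zmod_val] at h3
        refine ⟨⟨h2, ?_⟩, h3⟩
        rw [← ZMod.natCast_eq_zero_iff]
        simp only [zeroSet, Finset.mem_filter, Finset.mem_univ, true_and] at hx
        unfold lform
        push_cast
        rw [h3]
        exact hx
    · intro n hn
      simp only [Finset.coe_filter, Set.mem_ofPred_eq] at hn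
      simp only [zeroSet, Finset.coe_filter, Finset.mem_univ, true_and, Set.mem_ofPred_eq]
      have h2 := (ZMod.natCast_eq_zero_iff (lform a b n) d).2 hn.2
      unfold lform at h2
      push_cast at h2
      exact h2
  rw [h1]
  push_cast
  have h2 : (Fintype.card ι : ℝ) ^ d.primeFactors.card * N / d =
      ∑ x ∈ zeroSet a b d, (N : ℝ) / d := by
    rw [Finset.sum_const, hz, nsmul_eq_mul]
    push_cast
    ring
  rw [h2, ← Finset.sum_sub_distrib]
  refine (Finset.abs_sum_le_sum_abs _ _).trans ?_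
  calc ∑ x ∈ zeroSet a b d,
        |(((Finset.Ioc 0 N).filter (fun n => n ≡ x.val [MOD d])).card : ℝ) - N / d|
      ≤ ∑ x ∈ zeroSet a b d, (1 : ℝ) :=
        Finset.sum_le_sum fun x _ => card_class N d (Nat.pos_of_ne_zero hd0) _
    _ = _ := by
        rw [Finset.sum_const, hz, nsmul_eq_mul]
        push_cast
        ring

end Crest.Agent.Lib.LinSieve
end

-- ▼ part Lib/LinSieve/Main

/-! Upper bound sieve for several linear forms: main theorem. -/

set_option autoImplicit false

namespace Crest.Agent.Lib.LinSieve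

open Finset ArithmeticFunction BoundingSieve

/-- the density `ν(d) = k^{ω(d)}/d`. -/
noncomputable def nuk (k : ℕ) : ArithmeticFunction ℝ :=
  ⟨fun d => if d = 0 then 0 else (k : ℝ) ^ d.primeFactors.card / d, by simp⟩

lemma nuk_apply (k d : ℕ) (hd : d ≠ 0) : nuk k d = (k : ℝ) ^ d.primeFactors.card / d := by
  simp [nuk, hd]

lemma nuk_prime (k p : ℕ) (hp : p.Prime) : nuk k p = (k : ℝ) / p := by
  rw [nuk_apply k p hp.ne_zero, Nat.Prime.primeFactors hp]
  simp

lemma nuk_mult (k : ℕ) : (nuk k).IsMultiplicative := by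
  rw [IsMultiplicative.iff_ne_zero]
  refine ⟨by simp [nuk], fun {m n} hm hn hc => ?_⟩
  rw [nuk_apply k _ (mul_ne_zero hm hn), nuk_apply k _ hm, nuk_apply k _ hn,
    hc.primeFactors_mul, Finset.card_union_of_disjoint hc.disjoint_primeFactors, pow_add]
  push_cast
  field_simp

variable {k : ℕ}

/-- The sieve problem for the values of the product of the linear forms. -/
noncomputable def theSieve (hk : 1 ≤ k) (a b : Fin k → ℕ) (N P : ℕ) (hP : Squarefree P)
    (hg : ∀ p, p.Prime → p ∣ P → Good a b p) : BoundingSieve where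
  support := (Finset.Ioc 0 N).image (lform a b)
  prodPrimes := P
  prodPrimes_squarefree := hP
  weights := fun v => (((Finset.Ioc 0 N).filter (fun n => lform a b n = v)).card : ℝ)
  weights_nonneg := fun _ => Nat.cast_nonneg _
  totalMass := N
  nu := nuk k
  nu_mult := nuk_mult k
  nu_pos_of_prime := fun p hp _ => by
    rw [nuk_prime k p hp]
    have : (0 : ℝ) < k := by exact_mod_cast hk
    have h2 : (0 : ℝ) < p := by exact_mod_cast hp.pos
    positivity
  nu_lt_one_of_prime := fun p hp hpP => by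
    rw [nuk_prime k p hp]
    have h1 := (hg p hp hpP).2.1
    rw [Fintype.card_fin] at h1
    have h2 : (0 : ℝ) < p := by exact_mod_cast hp.pos
    rw [div_lt_one h2]
    exact_mod_cast h1

lemma theSieve_multSum (a b : Fin k → ℕ) (N : ℕ) (Q : ℕ → Prop) [DecidablePred Q] :
    (∑ v ∈ (Finset.Ioc 0 N).image (lform a b),
      if Q v then (((Finset.Ioc 0 N).filter (fun n => lform a b n = v)).card : ℝ) else 0) =
    (((Finset.Ioc 0 N).filter (fun n => Q (lform a b n))).card : ℝ) := by
  rw [← Finset.sum_filter]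
  rw [Finset.card_eq_sum_card_fiberwise (f := lform a b)
    (t := ((Finset.Ioc 0 N).image (lform a b)).filter Q)]
  · push_cast
    apply Finset.sum_congr rfl
    intro v hv
    rw [Finset.mem_filter] at hv
    congr 2
    ext n
    simp only [Finset.mem_filter]
    constructor
    · rintro ⟨h1, h2⟩
      exact ⟨⟨h1, by rw [h2]; exact hv.2⟩, h2⟩
    · rintro ⟨⟨h1, _⟩, h2⟩
      exact ⟨h1, h2⟩
  · intro n hn
    simp only [Finset.coe_filter, Set.mem_ofPred_eq] at hn
    simp only [Finset.coe_filter, Set.mem_ofPred_eq, Finset.mem_image]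
    exact ⟨⟨n, hn.1, rfl⟩, hn.2⟩

lemma theSieve_siftedSum (hk : 1 ≤ k) (a b : Fin k → ℕ) (N P : ℕ) (hP : Squarefree P)
    (hg : ∀ p, p.Prime → p ∣ P → Good a b p) :
    (theSieve hk a b N P hP hg).siftedSum =
      (((Finset.Ioc 0 N).filter (fun n => Nat.Coprime P (lform a b n))).card : ℝ) :=
  theSieve_multSum a b N (fun v => Nat.Coprime P v)

lemma theSieve_rem (hk : 1 ≤ k) (a b : Fin k → ℕ) (N P : ℕ) (hP : Squarefree P)
    (hg : ∀ p, p.Prime → p ∣ P → Good a b p) (d : ℕ) (hd : d ∣ P) :
    |(theSieve hk a b N P hP hg).rem d| ≤ d := by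
  have hd0 : d ≠ 0 := ne_zero_of_dvd_ne_zero hP.ne_zero hd
  have h1 : (theSieve hk a b N P hP hg).multSum d =
      (((Finset.Ioc 0 N).filter (fun n => d ∣ lform a b n)).card : ℝ) :=
    theSieve_multSum a b N (fun v => d ∣ v)
  have h2 := card_dvd_lform a b N d (hP.squarefree_of_dvd hd)
    (fun p hp hpd => hg p hp (hpd.trans hd))
  rw [Fintype.card_fin] at h2
  have h3 : (theSieve hk a b N P hP hg).rem d =
      (((Finset.Ioc 0 N).filter (fun n => d ∣ lform a b n)).card : ℝ) -
        (k : ℝ) ^ d.primeFactors.card * N / d := by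
    rw [BoundingSieve.rem, h1]
    change _ - nuk k d * (N : ℝ) = _
    rw [nuk_apply k d hd0]
    ring
  rw [h3]
  refine h2.trans ?_
  have h4 : ∏ p ∈ d.primeFactors, p = d :=
    Nat.prod_primeFactors_of_squarefree (hP.squarefree_of_dvd hd)
  have h5 : k ^ d.primeFactors.card ≤ ∏ p ∈ d.primeFactors, p := by
    rw [← Finset.prod_const]
    apply Finset.prod_le_prod'
    intro p hp
    have := (hg p (Nat.prime_of_mem_primeFactors hp)
      ((Nat.dvd_of_mem_primeFactors hp).trans hd)).2.1
    rw [Fintype.card_fin] at this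
    exact this.le
  rw [h4] at h5
  exact_mod_cast h5

lemma error_le (hk : 1 ≤ k) (a b : Fin k → ℕ) (N P : ℕ) (hP : Squarefree P)
    (hg : ∀ p, p.Prime → p ∣ P → Good a b p) (z : ℕ) :
    ∑ d1 ∈ P.divisors with d1 ≤ z, ∑ d2 ∈ P.divisors with d2 ≤ z,
        |(theSieve hk a b N P hP hg).rem (Nat.lcm d1 d2)| ≤ (z : ℝ) ^ 4 := by
  have h1 : ∀ d1 ∈ P.divisors.filter (fun d => d ≤ z), ∀ d2 ∈ P.divisors.filter (fun d => d ≤ z),
      |(theSieve hk a b N P hP hg).rem (Nat.lcm d1 d2)| ≤ (z : ℝ) ^ 2 := by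
    intro d1 h1 d2 h2
    rw [Finset.mem_filter, Nat.mem_divisors] at h1 h2
    refine (theSieve_rem hk a b N P hP hg _ (Nat.lcm_dvd h1.1.1 h2.1.1)).trans ?_
    have h3 : Nat.lcm d1 d2 ≤ d1 * d2 := by
      apply Nat.le_of_dvd
      · apply Nat.mul_pos
        · exact Nat.pos_of_ne_zero (ne_zero_of_dvd_ne_zero h1.1.2 h1.1.1)
        · exact Nat.pos_of_ne_zero (ne_zero_of_dvd_ne_zero h2.1.2 h2.1.1)
      · exact Nat.lcm_dvd (dvd_mul_right _ _) (dvd_mul_left _ _)
    have h4 : Nat.lcm d1 d2 ≤ z * z := h3.trans (Nat.mul_le_mul h1.2 h2.2)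
    rw [sq]
    exact_mod_cast h4
  have hc : ((P.divisors.filter (fun d => d ≤ z)).card : ℝ) ≤ z := by
    have : P.divisors.filter (fun d => d ≤ z) ⊆ Finset.Ioc 0 z := by
      intro d hd
      rw [Finset.mem_filter, Nat.mem_divisors] at hd
      rw [Finset.mem_Ioc]
      exact ⟨Nat.pos_of_ne_zero (ne_zero_of_dvd_ne_zero hd.1.2 hd.1.1), hd.2⟩
    have h2 := Finset.card_le_card this
    rw [Nat.card_Ioc] at h2
    exact_mod_cast h2
  calc _ ≤ ∑ d1 ∈ P.divisors with d1 ≤ z, ∑ d2 ∈ P.divisors with d2 ≤ z, (z : ℝ) ^ 2 :=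
        Finset.sum_le_sum fun d1 hd1 => Finset.sum_le_sum fun d2 hd2 => h1 d1 hd1 d2 hd2
    _ = ((P.divisors.filter (fun d => d ≤ z)).card : ℝ) ^ 2 * (z : ℝ) ^ 2 := by
        simp only [Finset.sum_const, nsmul_eq_mul]
        ring
    _ ≤ (z : ℝ) ^ 2 * (z : ℝ) ^ 2 := by
        apply mul_le_mul_of_nonneg_right _ (by positivity)
        exact pow_le_pow_left₀ (Nat.cast_nonneg _) hc 2
    _ = _ := by ring

/-- Rankin: multiplicative weight `∏_{p ∣ l} x p`. -/
lemma rankin_sum (s : BoundingSieve) (x : ℕ → ℝ) :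
    ∑ l ∈ s.prodPrimes.divisors, s.selbergTerms l * ∏ p ∈ l.primeFactors, x p =
      ∏ p ∈ s.prodPrimes.primeFactors, (1 + s.selbergTerms p * x p) := by
  have hP := s.prodPrimes_squarefree
  let f : ArithmeticFunction ℝ := s.selbergTerms.pmul (.prodPrimeFactors x)
  have hf : f.IsMultiplicative :=
    (selbergTerms_isMultiplicative (s := s)).pmul (IsMultiplicative.prodPrimeFactors x)
  have h1 := hf.prodPrimeFactors_one_add_of_squarefree hP
  have h2 : ∀ p ∈ s.prodPrimes.primeFactors, (1 + f p) = 1 + s.selbergTerms p * x p := by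
    intro p hp
    have hpp := Nat.prime_of_mem_primeFactors hp
    change 1 + (s.selbergTerms.pmul (.prodPrimeFactors x)) p = _
    rw [ArithmeticFunction.pmul_apply, ArithmeticFunction.prodPrimeFactors_apply hpp.ne_zero,
      hpp.primeFactors]
    simp
  rw [Finset.prod_congr rfl h2] at h1
  rw [h1]
  apply Finset.sum_congr rfl
  intro l hl
  rw [Nat.mem_divisors] at hl
  change _ = (s.selbergTerms.pmul (.prodPrimeFactors x)) l
  rw [ArithmeticFunction.pmul_apply,
    ArithmeticFunction.prodPrimeFactors_apply (ne_zero_of_dvd_ne_zero hl.2 hl.1)]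

lemma selbergTerms_prime (s : BoundingSieve) (p : ℕ) (hp : p.Prime) :
    s.selbergTerms p = s.nu p * (1 - s.nu p)⁻¹ := by
  rw [selbergTerms_apply, hp.primeFactors]
  simp

/-- lower bound for the Selberg sum by Rankin's trick: `G(z) ≥ 1/2 ∏ (1 - ν(p))⁻¹`. -/
lemma selG_ge (s : BoundingSieve) (y : ℝ) (hy : 2 ≤ y) (v : ℕ) (z : ℕ) (hz : y ^ v < z + 1)
    (hPy : ∀ p ∈ s.prodPrimes.primeFactors, (p : ℝ) ≤ y)
    (hsum : ∑ p ∈ s.prodPrimes.primeFactors, s.nu p * (2 * Real.log p / Real.log y) + 1 ≤ v) :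
    (1 / 2) * ∏ p ∈ s.prodPrimes.primeFactors, (1 - s.nu p)⁻¹ ≤ selG s z := by
  have hP := s.prodPrimes_squarefree
  have hP0 : s.prodPrimes ≠ 0 := prodPrimes_ne_zero
  have hly : 0 < Real.log y := Real.log_pos (by linarith)
  set x : ℕ → ℝ := fun p => Real.exp (Real.log p / Real.log y) with hx
  have hx0 : ∀ p, 0 < x p := fun p => Real.exp_pos _
  have hnu : ∀ p ∈ s.prodPrimes.primeFactors, 0 < s.nu p ∧ s.nu p < 1 := by
    intro p hp
    have h1 := Nat.prime_of_mem_primeFactors hp
    have h2 := Nat.dvd_of_mem_primeFactors hp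
    exact ⟨s.nu_pos_of_prime p h1 h2, s.nu_lt_one_of_prime p h1 h2⟩
  have hg : ∀ p ∈ s.prodPrimes.primeFactors, 1 + s.selbergTerms p = (1 - s.nu p)⁻¹ := by
    intro p hp
    rw [selbergTerms_prime s p (Nat.prime_of_mem_primeFactors hp)]
    have h1 : 1 - s.nu p ≠ 0 := by linarith [(hnu p hp).2]
    field_simp
    ring
  -- total sum
  have htot : ∑ l ∈ s.prodPrimes.divisors, s.selbergTerms l =
      ∏ p ∈ s.prodPrimes.primeFactors, (1 - s.nu p)⁻¹ := by
    have := rankin_sum s (fun _ => 1)
    simp only [Finset.prod_const_one, mul_one] at this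
    rw [this]
    exact Finset.prod_congr rfl hg
  -- the tail
  have hprodx : ∀ l ∈ s.prodPrimes.divisors, z < l →
      Real.exp v ≤ ∏ p ∈ l.primeFactors, x p := by
    intro l hl hzl
    rw [Nat.mem_divisors] at hl
    have hlsq := hP.squarefree_of_dvd hl.1
    have h1 : ∏ p ∈ l.primeFactors, x p = Real.exp (Real.log l / Real.log y) := by
      rw [hx, ← Real.exp_sum, ← Finset.sum_div]
      congr 2
      conv_rhs => rw [← Nat.prod_primeFactors_of_squarefree hlsq]
      push_cast
      rw [Real.log_prod]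
      intro p hp
      exact_mod_cast (Nat.prime_of_mem_primeFactors hp).ne_zero
    rw [h1, Real.exp_le_exp, le_div_iff₀ hly, ← Real.log_pow]
    apply Real.log_le_log (by positivity)
    have h2 : (z : ℝ) + 1 ≤ l := by exact_mod_cast hzl
    linarith
  have htail : ∑ l ∈ s.prodPrimes.divisors with ¬ l ≤ z, s.selbergTerms l ≤
      (1 / 2) * ∏ p ∈ s.prodPrimes.primeFactors, (1 - s.nu p)⁻¹ := by
    have hprodpos : 0 < ∏ p ∈ s.prodPrimes.primeFactors, (1 - s.nu p)⁻¹ := by
      apply Finset.prod_pos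
      intro p hp
      rw [inv_pos]
      linarith [(hnu p hp).2]
    have h1 : Real.exp v * ∑ l ∈ s.prodPrimes.divisors with ¬ l ≤ z, s.selbergTerms l ≤
        ∏ p ∈ s.prodPrimes.primeFactors, (1 + s.selbergTerms p * x p) := by
      rw [← rankin_sum s x, Finset.mul_sum]
      refine (Finset.sum_le_sum (g := fun l => s.selbergTerms l * ∏ p ∈ l.primeFactors, x p)
        ?_).trans ?_
      · intro l hl
        rw [Finset.mem_filter] at hl
        have h2 := hprodx l hl.1 (not_le.1 hl.2)
        have h3 := selbergTerms_pos (Nat.mem_divisors.1 hl.1).1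
        rw [mul_comm]
        exact mul_le_mul_of_nonneg_left h2 h3.le
      · apply Finset.sum_le_sum_of_subset_of_nonneg (Finset.filter_subset _ _)
        intro l hl _
        have h3 := selbergTerms_pos (Nat.mem_divisors.1 hl).1
        have : 0 ≤ ∏ p ∈ l.primeFactors, x p := Finset.prod_nonneg fun p _ => (hx0 p).le
        positivity
    have h2 : ∏ p ∈ s.prodPrimes.primeFactors, (1 + s.selbergTerms p * x p) ≤
        Real.exp ((v : ℝ) - 1) * ∏ p ∈ s.prodPrimes.primeFactors, (1 - s.nu p)⁻¹ := by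
      have h3 : ∀ p ∈ s.prodPrimes.primeFactors, 1 + s.selbergTerms p * x p ≤
          Real.exp (s.nu p * (2 * Real.log p / Real.log y)) * (1 - s.nu p)⁻¹ := by
        intro p hp
        have hpp := Nat.prime_of_mem_primeFactors hp
        have hnup := hnu p hp
        have h4 : x p - 1 ≤ 2 * Real.log p / Real.log y := by
          have h5 : 0 ≤ Real.log p / Real.log y :=
            div_nonneg (Real.log_natCast_nonneg p) hly.le
          have h6 : Real.log p / Real.log y ≤ 1 := by
            rw [div_le_one hly]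
            exact Real.log_le_log (by exact_mod_cast hpp.pos) (hPy p hp)
          have h7 := Real.abs_exp_sub_one_le (x := Real.log p / Real.log y)
            (by rw [abs_of_nonneg h5]; exact h6)
          rw [abs_of_nonneg h5] at h7
          have h8 := (abs_le.1 h7).2
          rw [mul_div_assoc]
          exact h8
        have h9 : s.selbergTerms p = s.nu p * (1 - s.nu p)⁻¹ := selbergTerms_prime s p hpp
        have h10 : 0 < 1 - s.nu p := by linarith
        have h11 : 1 + s.selbergTerms p * x p = (1 + s.nu p * (x p - 1)) * (1 - s.nu p)⁻¹ := by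
          rw [h9]
          field_simp
          ring
        rw [h11]
        apply mul_le_mul_of_nonneg_right _ (inv_pos.2 h10).le
        have h12 : s.nu p * (x p - 1) ≤ s.nu p * (2 * Real.log p / Real.log y) :=
          mul_le_mul_of_nonneg_left h4 hnup.1.le
        have h13 := Real.add_one_le_exp (s.nu p * (2 * Real.log p / Real.log y))
        linarith
      calc ∏ p ∈ s.prodPrimes.primeFactors, (1 + s.selbergTerms p * x p)
          ≤ ∏ p ∈ s.prodPrimes.primeFactors,
            (Real.exp (s.nu p * (2 * Real.log p / Real.log y)) * (1 - s.nu p)⁻¹) := by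
            apply Finset.prod_le_prod
            · intro p hp
              have h3 := selbergTerms_pos (Nat.dvd_of_mem_primeFactors hp)
              have := hx0 p
              positivity
            · exact h3
        _ = Real.exp (∑ p ∈ s.prodPrimes.primeFactors,
              s.nu p * (2 * Real.log p / Real.log y)) *
            ∏ p ∈ s.prodPrimes.primeFactors, (1 - s.nu p)⁻¹ := by
            rw [Finset.prod_mul_distrib, Real.exp_sum]
        _ ≤ _ := by
            apply mul_le_mul_of_nonneg_right _ hprodpos.le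
            rw [Real.exp_le_exp]
            linarith
    have h3 : Real.exp ((v : ℝ) - 1) ≤ Real.exp v * (1 / 2) := by
      rw [Real.exp_sub]
      have h4 : (2 : ℝ) ≤ Real.exp 1 := by
        have := Real.add_one_le_exp (1 : ℝ)
        linarith
      have h5 : 0 < Real.exp (v : ℝ) := Real.exp_pos _
      rw [div_le_iff₀ (Real.exp_pos 1)]
      nlinarith
    have h6 : 0 < Real.exp (v : ℝ) := Real.exp_pos _
    have h7 : Real.exp v * ∑ l ∈ s.prodPrimes.divisors with ¬ l ≤ z, s.selbergTerms l ≤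
        Real.exp v * ((1 / 2) * ∏ p ∈ s.prodPrimes.primeFactors, (1 - s.nu p)⁻¹) := by
      refine h1.trans (h2.trans ?_)
      rw [← mul_assoc]
      exact mul_le_mul_of_nonneg_right h3 hprodpos.le
    exact le_of_mul_le_mul_left h7 h6
  have hsplit := Finset.sum_filter_add_sum_filter_not s.prodPrimes.divisors
    (fun l => l ≤ z) (fun l => s.selbergTerms l)
  rw [htot] at hsplit
  unfold selG
  linarith

/-- the sifting primes: `k < p ≤ y`, `p ∤ E` -/
noncomputable def siftPrimes (k E : ℕ) (y : ℝ) : Finset ℕ :=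
  (Nat.primesLE ⌊y⌋₊).filter (fun p => k < p ∧ ¬ p ∣ E)

lemma mem_siftPrimes {k E p : ℕ} {y : ℝ} :
    p ∈ siftPrimes k E y ↔ (p ≤ ⌊y⌋₊ ∧ p.Prime) ∧ k < p ∧ ¬ p ∣ E := by
  unfold siftPrimes
  rw [Finset.mem_filter, Nat.mem_primesLE]

lemma prod_siftPrimes_squarefree (k E : ℕ) (y : ℝ) :
    Squarefree (∏ p ∈ siftPrimes k E y, p) := by
  apply Finset.squarefree_prod_of_pairwise_isCoprime
  · intro p hp q hq hpq
    rw [Function.onFun, ← Nat.coprime_iff_isRelPrime,
      Nat.coprime_primes (mem_siftPrimes.1 hp).1.2 (mem_siftPrimes.1 hq).1.2]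
    exact hpq
  · intro p hp
    exact (mem_siftPrimes.1 hp).1.2.squarefree

lemma primeFactors_prod_siftPrimes (k E : ℕ) (y : ℝ) :
    (∏ p ∈ siftPrimes k E y, p).primeFactors = siftPrimes k E y :=
  Nat.primeFactors_prod fun _ hp => (mem_siftPrimes.1 hp).1.2

/-- `∏_{p ≤ y} (1-1/p) ≤ C / log y`. -/
lemma prod_primesLE_le : ∃ C : ℝ, 0 < C ∧ ∀ y : ℝ, 2 ≤ y →
    ∏ p ∈ Nat.primesLE ⌊y⌋₊, (1 - 1 / (p : ℝ)) ≤ C / Real.log y := by
  refine ⟨Real.exp (22 / Real.log 2) * Real.log 2, ?_, fun y hy => ?_⟩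
  · have := Real.log_pos (show (1 : ℝ) < 2 by norm_num)
    positivity
  have h1 := (Mertens.mertens_three 2 y le_rfl hy).2
  have hsub : Mertens.pr 2 y ⊆ Nat.primesLE ⌊y⌋₊ := by
    intro p hp
    rw [Mertens.mem_pr (by norm_num) (by linarith)] at hp
    rw [Nat.mem_primesLE]
    exact ⟨Nat.le_floor hp.1.2, hp.2⟩
  have hb : ∀ p ∈ Nat.primesLE ⌊y⌋₊, 0 ≤ 1 - 1 / (p : ℝ) ∧ 1 - 1 / (p : ℝ) ≤ 1 := by
    intro p hp
    rw [Nat.mem_primesLE] at hp
    have h2 : (2 : ℝ) ≤ p := by exact_mod_cast hp.2.two_le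
    have h3 : 1 / (p : ℝ) ≤ 1 / 2 := one_div_le_one_div_of_le (by norm_num) h2
    have h4 : 0 < 1 / (p : ℝ) := by positivity
    constructor <;> linarith
  have h2 : ∏ p ∈ Nat.primesLE ⌊y⌋₊, (1 - 1 / (p : ℝ)) ≤
      ∏ p ∈ Mertens.pr 2 y, (1 - 1 / (p : ℝ)) := by
    rw [← Finset.prod_sdiff hsub]
    refine mul_le_of_le_one_left ?_ ?_
    · exact Finset.prod_nonneg fun p hp => (hb p (hsub hp)).1
    · exact Finset.prod_le_one (fun p hp => (hb p (Finset.sdiff_subset hp)).1)
        (fun p hp => (hb p (Finset.sdiff_subset hp)).2)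
  refine h2.trans (h1.trans (le_of_eq ?_))
  ring

lemma prod_primeFactors_eq (E : ℕ) (hE : E ≠ 0) :
    ∏ p ∈ E.primeFactors, (1 - 1 / (p : ℝ)) = (Nat.totient E : ℝ) / E := by
  have h := Nat.totient_eq_mul_prod_factors E
  have h2 : ((Nat.totient E : ℚ) : ℝ) =
      ((E * ∏ p ∈ E.primeFactors, (1 - (p : ℚ)⁻¹) : ℚ) : ℝ) := by rw [h]
  push_cast at h2
  rw [h2]
  have : (E : ℝ) ≠ 0 := by exact_mod_cast hE
  field_simp

lemma prod_small_ge (k : ℕ) (hk : 1 ≤ k) :
    (1 : ℝ) / k ≤ ∏ p ∈ Nat.primesLE k, (1 - 1 / (p : ℝ)) := by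
  have hprod : ∏ j ∈ Finset.Icc 2 k, (1 - 1 / (j : ℝ)) = 1 / k := by
    induction k, hk using Nat.le_induction with
    | base => simp
    | succ n hn ih =>
      rw [Finset.prod_Icc_succ_top (by omega), ih]
      have : (0 : ℝ) < n := by exact_mod_cast hn
      push_cast
      field_simp
      ring
  rw [← hprod]
  have hb : ∀ p ∈ Finset.Icc 2 k, 0 ≤ 1 - 1 / (p : ℝ) ∧ 1 - 1 / (p : ℝ) ≤ 1 := by
    intro p hp
    rw [Finset.mem_Icc] at hp
    have h2 : (2 : ℝ) ≤ p := by exact_mod_cast hp.1
    have h3 : 1 / (p : ℝ) ≤ 1 / 2 := one_div_le_one_div_of_le (by norm_num) h2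
    have h4 : 0 < 1 / (p : ℝ) := by positivity
    constructor <;> linarith
  have hsub : Nat.primesLE k ⊆ Finset.Icc 2 k := by
    intro p hp
    rw [Nat.mem_primesLE] at hp
    rw [Finset.mem_Icc]
    exact ⟨hp.2.two_le, hp.1⟩
  rw [← Finset.prod_sdiff hsub]
  refine mul_le_of_le_one_left ?_ ?_
  · exact Finset.prod_nonneg fun p hp => (hb p (hsub hp)).1
  · exact Finset.prod_le_one (fun p hp => (hb p (Finset.sdiff_subset hp)).1)
      (fun p hp => (hb p (Finset.sdiff_subset hp)).2)

/-- the product over the sifting primes -/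
lemma prod_sift_le (k : ℕ) (hk : 1 ≤ k) : ∃ C : ℝ, 0 < C ∧ ∀ (E : ℕ) (y : ℝ), E ≠ 0 → 2 ≤ y →
    ∏ p ∈ siftPrimes k E y, (1 - (k : ℝ) / p) ≤
      C * (1 / Real.log y) ^ k * ((E : ℝ) / Nat.totient E) ^ k := by
  obtain ⟨C, hC, h⟩ := prod_primesLE_le
  refine ⟨(C * k) ^ k, by positivity, fun E y hE hy => ?_⟩
  have hly : 0 < Real.log y := Real.log_pos (by linarith)
  have hEt : (0 : ℝ) < Nat.totient E := by
    exact_mod_cast Nat.totient_pos.2 (Nat.pos_of_ne_zero hE)
  have hE0 : (0 : ℝ) < E := by exact_mod_cast Nat.pos_of_ne_zero hE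
  have hk0 : (0 : ℝ) < k := by exact_mod_cast hk
  have hb : ∀ p : ℕ, p.Prime → 0 < 1 - 1 / (p : ℝ) ∧ 1 - 1 / (p : ℝ) ≤ 1 := by
    intro p hp
    have h2 : (2 : ℝ) ≤ p := by exact_mod_cast hp.two_le
    have h3 : 1 / (p : ℝ) ≤ 1 / 2 := one_div_le_one_div_of_le (by norm_num) h2
    have h4 : 0 < 1 / (p : ℝ) := by positivity
    constructor <;> linarith
  -- product of (1 - 1/p) over sifting primes
  have h1 : ∏ p ∈ siftPrimes k E y, (1 - 1 / (p : ℝ)) ≤
      (C / Real.log y) * (k * ((E : ℝ) / Nat.totient E)) := by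
    have hsub : siftPrimes k E y ⊆ Nat.primesLE ⌊y⌋₊ := Finset.filter_subset _ _
    have h2 := h y hy
    rw [← Finset.prod_sdiff hsub] at h2
    have h3 : ((1 : ℝ) / k) * ((Nat.totient E : ℝ) / E) ≤
        ∏ p ∈ Nat.primesLE ⌊y⌋₊ \ siftPrimes k E y, (1 - 1 / (p : ℝ)) := by
      have h4 : (Nat.primesLE ⌊y⌋₊ \ siftPrimes k E y) ⊆ Nat.primesLE k ∪ E.primeFactors := by
        intro p hp
        rw [Finset.mem_sdiff, Nat.mem_primesLE, mem_siftPrimes] at hp
        rw [Finset.mem_union, Nat.mem_primesLE, Nat.mem_primeFactors]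
        by_cases h5 : k < p
        · right
          refine ⟨hp.1.2, ?_, hE⟩
          by_contra h6
          exact hp.2 ⟨hp.1, h5, h6⟩
        · left
          exact ⟨not_lt.1 h5, hp.1.2⟩
      have hprime : ∀ p ∈ Nat.primesLE k ∪ E.primeFactors, p.Prime := by
        intro p hp
        rw [Finset.mem_union, Nat.mem_primesLE] at hp
        rcases hp with hp | hp
        · exact hp.2
        · exact Nat.prime_of_mem_primeFactors hp
      have h5 : ∏ p ∈ Nat.primesLE k ∪ E.primeFactors, (1 - 1 / (p : ℝ)) ≤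
          ∏ p ∈ Nat.primesLE ⌊y⌋₊ \ siftPrimes k E y, (1 - 1 / (p : ℝ)) := by
        rw [← Finset.prod_sdiff h4]
        refine mul_le_of_le_one_left ?_ ?_
        · exact Finset.prod_nonneg fun p hp => (hb p (hprime p (h4 hp))).1.le
        · exact Finset.prod_le_one
            (fun p hp => (hb p (hprime p (Finset.sdiff_subset hp))).1.le)
            (fun p hp => (hb p (hprime p (Finset.sdiff_subset hp))).2)
      refine le_trans ?_ h5
      have h6 : (∏ p ∈ Nat.primesLE k, (1 - 1 / (p : ℝ))) *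
          (∏ p ∈ E.primeFactors, (1 - 1 / (p : ℝ))) ≤
          ∏ p ∈ Nat.primesLE k ∪ E.primeFactors, (1 - 1 / (p : ℝ)) := by
        have h7 : ∏ p ∈ Nat.primesLE k ∪ E.primeFactors, (1 - 1 / (p : ℝ)) =
            (∏ p ∈ Nat.primesLE k, (1 - 1 / (p : ℝ))) *
              ∏ p ∈ E.primeFactors \ Nat.primesLE k, (1 - 1 / (p : ℝ)) := by
          rw [← Finset.union_sdiff_self_eq_union, Finset.prod_union Finset.disjoint_sdiff]
        rw [h7]
        apply mul_le_mul_of_nonneg_left
        · rw [← Finset.prod_sdiff (Finset.sdiff_subset : E.primeFactors \ Nat.primesLE k ⊆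
            E.primeFactors)]
          refine mul_le_of_le_one_left ?_ ?_
          · exact Finset.prod_nonneg fun p hp =>
              (hb p (Nat.prime_of_mem_primeFactors (Finset.sdiff_subset hp))).1.le
          · exact Finset.prod_le_one
              (fun p hp => (hb p (Nat.prime_of_mem_primeFactors (Finset.sdiff_subset hp))).1.le)
              (fun p hp => (hb p (Nat.prime_of_mem_primeFactors (Finset.sdiff_subset hp))).2)
        · exact Finset.prod_nonneg fun p hp => (hb p (Nat.mem_primesLE.1 hp).2).1.le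
      refine le_trans ?_ h6
      rw [prod_primeFactors_eq E hE]
      apply mul_le_mul_of_nonneg_right (prod_small_ge k hk)
      positivity
    have h4 : 0 ≤ ∏ p ∈ siftPrimes k E y, (1 - 1 / (p : ℝ)) :=
      Finset.prod_nonneg fun p hp => (hb p (mem_siftPrimes.1 hp).1.2).1.le
    have h5 : ((1 : ℝ) / k) * ((Nat.totient E : ℝ) / E) *
        ∏ p ∈ siftPrimes k E y, (1 - 1 / (p : ℝ)) ≤ C / Real.log y :=
      (mul_le_mul_of_nonneg_right h3 h4).trans h2
    have h6 : 0 < ((1 : ℝ) / k) * ((Nat.totient E : ℝ) / E) := by positivity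
    rw [← le_div_iff₀' h6] at h5
    refine h5.trans (le_of_eq ?_)
    field_simp
  calc ∏ p ∈ siftPrimes k E y, (1 - (k : ℝ) / p)
      ≤ ∏ p ∈ siftPrimes k E y, (1 - 1 / (p : ℝ)) ^ k := by
        apply Finset.prod_le_prod
        · intro p hp
          have h2 := (mem_siftPrimes.1 hp)
          have h3 : (k : ℝ) ≤ p := by exact_mod_cast h2.2.1.le
          have h4 : (0 : ℝ) < p := by exact_mod_cast h2.1.2.pos
          have : (k : ℝ) / p ≤ 1 := by
            rw [div_le_one h4]; exact h3
          linarith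
        · intro p hp
          have h2 := (mem_siftPrimes.1 hp)
          have h5 := (hb p h2.1.2)
          have h6 : (-2 : ℝ) ≤ -(1 / (p : ℝ)) := by linarith [h5.1]
          have h7 := one_add_mul_le_pow h6 k
          have e1 : 1 + (k : ℝ) * -(1 / (p : ℝ)) = 1 - (k : ℝ) / p := by ring
          have e2 : 1 + -(1 / (p : ℝ)) = 1 - 1 / (p : ℝ) := by ring
          rw [e1, e2] at h7
          exact h7
    _ = (∏ p ∈ siftPrimes k E y, (1 - 1 / (p : ℝ))) ^ k := by
        rw [Finset.prod_pow]
    _ ≤ ((C / Real.log y) * (k * ((E : ℝ) / Nat.totient E))) ^ k := by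
        apply pow_le_pow_left₀ _ h1
        exact Finset.prod_nonneg fun p hp => (hb p (mem_siftPrimes.1 hp).1.2).1.le
    _ = _ := by
        rw [← mul_pow, ← mul_pow]
        congr 1
        ring

lemma T_half_le (k : ℕ) (hk : 1 ≤ k) (T : ℝ) (hT : 2 ≤ T) :
    T ^ ((1 : ℝ) / 2) ≤ (2 * k : ℝ) ^ k * (T / Real.log T ^ k) := by
  have hk0 : (0 : ℝ) < k := by exact_mod_cast hk
  have hlT : 0 < Real.log T := Real.log_pos (by linarith)
  have hT0 : 0 < T := by linarith
  have h1 := Real.log_le_rpow_div hT0.le (show (0 : ℝ) < 1 / (2 * k) by positivity)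
  have h2 : Real.log T ≤ (2 * k) * T ^ ((1 : ℝ) / (2 * k)) := by
    refine h1.trans (le_of_eq ?_)
    field_simp
  have h3 : Real.log T ^ k ≤ (2 * k) ^ k * T ^ ((1 : ℝ) / 2) := by
    calc Real.log T ^ k ≤ ((2 * k) * T ^ ((1 : ℝ) / (2 * k))) ^ k :=
          pow_le_pow_left₀ hlT.le h2 k
      _ = _ := by
        rw [mul_pow, ← Real.rpow_natCast (T ^ ((1 : ℝ) / (2 * k))) k, ← Real.rpow_mul hT0.le]
        congr 2
        field_simp
  have hTT : T ^ ((1 : ℝ) / 2) * T ^ ((1 : ℝ) / 2) = T := by
    rw [← Real.rpow_add hT0]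
    norm_num
  rw [mul_div_assoc', le_div_iff₀ (pow_pos hlT k)]
  have h4 : 0 < T ^ ((1 : ℝ) / 2) := Real.rpow_pos_of_pos hT0 _
  calc T ^ ((1 : ℝ) / 2) * Real.log T ^ k ≤ T ^ ((1 : ℝ) / 2) * ((2 * k) ^ k * T ^ ((1 : ℝ) / 2)) :=
        mul_le_mul_of_nonneg_left h3 h4.le
    _ = (2 * k) ^ k * (T ^ ((1 : ℝ) / 2) * T ^ ((1 : ℝ) / 2)) := by ring
    _ = _ := by rw [hTT]

lemma prime_count_le (a b : Fin k → ℕ) (N E : ℕ) (hE : E ≠ 0) (haE : ∀ i, a i ∣ E) (y : ℝ)
    (hy : 0 ≤ y) :
    (((Finset.Ioc 0 N).filter (fun n => ∀ i, (a i * n + b i).Prime)).card : ℝ) ≤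
      (((Finset.Ioc 0 N).filter
        (fun n => Nat.Coprime (∏ p ∈ siftPrimes k E y, p) (lform a b n))).card : ℝ) + y := by
  have h1 : (Finset.Ioc 0 N).filter (fun n => ∀ i, (a i * n + b i).Prime) ⊆
      (Finset.Ioc 0 N).filter
        (fun n => Nat.Coprime (∏ p ∈ siftPrimes k E y, p) (lform a b n)) ∪
        Finset.Ioc 0 ⌊y⌋₊ := by
    intro n hn
    rw [Finset.mem_filter, Finset.mem_Ioc] at hn
    by_cases hny : n ≤ ⌊y⌋₊
    · apply Finset.mem_union_right
      rw [Finset.mem_Ioc]
      exact ⟨hn.1.1, hny⟩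
    · apply Finset.mem_union_left
      rw [Finset.mem_filter, Finset.mem_Ioc]
      refine ⟨hn.1, ?_⟩
      apply Nat.Coprime.symm
      unfold lform
      apply Nat.Coprime.prod_left
      intro i _
      rw [(hn.2 i).coprime_iff_not_dvd]
      intro hdvd
      have h2 : a i * n + b i ∈ siftPrimes k E y := by
        rw [← primeFactors_prod_siftPrimes k E y, Nat.mem_primeFactors]
        exact ⟨hn.2 i, hdvd, (prod_siftPrimes_squarefree k E y).ne_zero⟩
      have h5 := (mem_siftPrimes.1 h2).1.1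
      have h3 : 1 ≤ a i := Nat.pos_of_ne_zero (ne_zero_of_dvd_ne_zero hE (haE i))
      have h4 : n ≤ a i * n + b i := by nlinarith
      omega
  have h2 := Finset.card_le_card h1
  have h3 := h2.trans (Finset.card_union_le _ _)
  rw [Nat.card_Ioc] at h3
  have h4 : (((Finset.Ioc 0 N).filter (fun n => ∀ i, (a i * n + b i).Prime)).card : ℝ) ≤
    (((Finset.Ioc 0 N).filter
      (fun n => Nat.Coprime (∏ p ∈ siftPrimes k E y, p) (lform a b n))).card : ℝ) +
      (⌊y⌋₊ : ℝ) := by exact_mod_cast h3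
  have h5 : (⌊y⌋₊ : ℝ) ≤ y := Nat.floor_le hy
  linarith

set_option maxHeartbeats 800000 in
/-- **Upper bound sieve for `k` linear forms.**  The number of `n ≤ T` such that all
`a i * n + b i` are prime is `≪_k T / (log T)^k * (E / φ(E))^k`, uniformly, where `E ≠ 0` is any
common multiple of the slopes and of the determinants `a i b j - a j b i`. -/
theorem linear_sieve (k : ℕ) (hk : 1 ≤ k) : ∃ C : ℝ, 0 < C ∧
    ∀ (a b : Fin k → ℕ) (E : ℕ), E ≠ 0 → (∀ i, a i ∣ E) →
      (∀ i j, i ≠ j → ((a i : ℤ) * b j - (a j : ℤ) * b i) ∣ (E : ℤ)) → ∀ T : ℝ, 2 ≤ T →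
      (((Finset.Ioc 0 ⌊T⌋₊).filter (fun n => ∀ i, (a i * n + b i).Prime)).card : ℝ) ≤
        C * (T / Real.log T ^ k) * ((E : ℝ) / Nat.totient E) ^ k := by
  obtain ⟨C₁, hC₁, hsift⟩ := prod_sift_le k hk
  set v : ℕ := 6 * k + 1 with hv
  have hk0 : (0 : ℝ) < k := by exact_mod_cast hk
  have hv0 : (0 : ℝ) < v := by positivity
  refine ⟨2 * C₁ * (16 * v) ^ k + 2 * (2 * k) ^ k + (8 * v) ^ k, by positivity, ?_⟩
  intro a b E hE haE habE T hT
  have hT0 : 0 < T := by linarith
  have hlT : 0 < Real.log T := Real.log_pos (by linarith)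
  have hlTk : 0 < Real.log T ^ k := pow_pos hlT k
  have hE0 : (0 : ℝ) < E := by exact_mod_cast Nat.pos_of_ne_zero hE
  have hEt : (0 : ℝ) < Nat.totient E := by
    exact_mod_cast Nat.totient_pos.2 (Nat.pos_of_ne_zero hE)
  have hEr1 : (1 : ℝ) ≤ (E : ℝ) / Nat.totient E := by
    rw [le_div_iff₀ hEt, one_mul]
    exact_mod_cast Nat.totient_le E
  have hEr : (1 : ℝ) ≤ ((E : ℝ) / Nat.totient E) ^ k := one_le_pow₀ hEr1
  set N := ⌊T⌋₊ with hN
  have hNT : (N : ℝ) ≤ T := Nat.floor_le hT0.le
  have hTN : T < N + 1 := Nat.lt_floor_add_one T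
  have hN2 : 2 ≤ N := Nat.le_floor (by exact_mod_cast hT)
  have hcardN : (((Finset.Ioc 0 N).filter (fun n => ∀ i, (a i * n + b i).Prime)).card : ℝ) ≤ N := by
    have h1 := Finset.card_filter_le (Finset.Ioc 0 N) (fun n => ∀ i, (a i * n + b i).Prime)
    rw [Nat.card_Ioc] at h1
    exact_mod_cast h1
  have hTk : 0 < T / Real.log T ^ k := by positivity
  by_cases hsmall : N < 2 ^ (8 * v)
  · -- trivial bound
    have h1 : Real.log T ≤ 8 * v := by
      have h2 : T ≤ (2 : ℝ) ^ (8 * v) := by
        have : (N : ℝ) + 1 ≤ (2 : ℝ) ^ (8 * v) := by exact_mod_cast hsmall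
        linarith
      have h3 := Real.log_le_log hT0 h2
      rw [Real.log_pow] at h3
      have h4 : Real.log 2 ≤ 1 := by
        have := Real.log_two_lt_d9
        linarith
      push_cast at h3
      nlinarith
    have h2 : Real.log T ^ k ≤ (8 * v) ^ k := pow_le_pow_left₀ hlT.le h1 k
    have h3 : T ≤ (8 * v) ^ k * (T / Real.log T ^ k) := by
      rw [mul_div_assoc', le_div_iff₀ hlTk, mul_comm]
      exact mul_le_mul_of_nonneg_right h2 hT0.le
    calc (((Finset.Ioc 0 N).filter (fun n => ∀ i, (a i * n + b i).Prime)).card : ℝ) ≤ T :=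
          hcardN.trans hNT
      _ ≤ (8 * v) ^ k * (T / Real.log T ^ k) := h3
      _ ≤ (2 * C₁ * (16 * v) ^ k + 2 * (2 * k) ^ k + (8 * v) ^ k) * (T / Real.log T ^ k) := by
          apply mul_le_mul_of_nonneg_right _ hTk.le
          have : 0 < 2 * C₁ * (16 * v) ^ k + 2 * (2 * k) ^ k := by positivity
          linarith
      _ ≤ _ := le_mul_of_one_le_right (by positivity) hEr
  · push Not at hsmall
    have hN0 : (0 : ℝ) < N := by
      have : 0 < N := by omega
      exact_mod_cast this
    have hN1 : (1 : ℝ) ≤ N := by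
      have : 1 ≤ N := by omega
      exact_mod_cast this
    set y : ℝ := (N : ℝ) ^ ((1 : ℝ) / (8 * v)) with hy
    have hy2 : 2 ≤ y := by
      have h1 : (2 : ℝ) = ((2 : ℝ) ^ (8 * v)) ^ ((1 : ℝ) / (8 * v)) := by
        rw [← Real.rpow_natCast, ← Real.rpow_mul (by norm_num)]
        push_cast
        rw [mul_one_div_cancel (by positivity), Real.rpow_one]
      rw [h1, hy]
      apply Real.rpow_le_rpow (by positivity) _ (by positivity)
      exact_mod_cast hsmall
    have hy0 : 0 < y := by linarith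
    have hly : 0 < Real.log y := Real.log_pos (by linarith)
    have hlogy : Real.log y = Real.log N / (8 * v) := by
      rw [hy, Real.log_rpow hN0]
      ring
    have hyv : y ^ v = (N : ℝ) ^ ((1 : ℝ) / 8) := by
      rw [hy, ← Real.rpow_natCast, ← Real.rpow_mul hN0.le]
      congr 1
      field_simp
    set z := ⌊y ^ v⌋₊ with hz
    have hz1 : 1 ≤ z := by
      apply Nat.le_floor
      push_cast
      exact one_le_pow₀ (by linarith)
    have hzlt : y ^ v < z + 1 := Nat.lt_floor_add_one _
    have hzle : (z : ℝ) ≤ y ^ v := Nat.floor_le (by positivity)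
    have hz4 : (z : ℝ) ^ 4 ≤ (N : ℝ) ^ ((1 : ℝ) / 2) := by
      calc (z : ℝ) ^ 4 ≤ (y ^ v) ^ 4 := pow_le_pow_left₀ (Nat.cast_nonneg _) hzle 4
        _ = _ := by
          rw [hyv, ← Real.rpow_natCast, ← Real.rpow_mul hN0.le]
          norm_num
    have hyN : y ≤ (N : ℝ) ^ ((1 : ℝ) / 2) := by
      rw [hy]
      apply Real.rpow_le_rpow_of_exponent_le hN1
      have hv1 : (1 : ℝ) ≤ v := by
        have : 1 ≤ v := by omega
        exact_mod_cast this
      apply one_div_le_one_div_of_le (by norm_num)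
      linarith
    set P := ∏ p ∈ siftPrimes k E y, p with hP
    have hPsq : Squarefree P := prod_siftPrimes_squarefree k E y
    have hPf : P.primeFactors = siftPrimes k E y := primeFactors_prod_siftPrimes k E y
    have hmemP : ∀ p, p.Prime → p ∣ P → p ∈ siftPrimes k E y := by
      intro p hp hpP
      rw [← hPf, Nat.mem_primeFactors]
      exact ⟨hp, hpP, hPsq.ne_zero⟩
    have hg : ∀ p, p.Prime → p ∣ P → Good a b p := by
      intro p hp hpP
      have h1 := mem_siftPrimes.1 (hmemP p hp hpP)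
      refine ⟨hp, by rw [Fintype.card_fin]; exact h1.2.1, fun i hi => h1.2.2 (hi.trans (haE i)),
        fun i j hij hpd => h1.2.2 ?_⟩
      have := hpd.trans (habE i j hij)
      exact_mod_cast this
    set s := theSieve hk a b N P hPsq hg with hs
    have hsP : s.prodPrimes = P := rfl
    have hsnu : s.nu = nuk k := rfl
    have hnup : ∀ p ∈ P.primeFactors, s.nu p = (k : ℝ) / p := by
      intro p hp
      rw [hsnu, nuk_prime k p (Nat.prime_of_mem_primeFactors hp)]
    have hG := selG_ge s y hy2 v z hzlt (by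
      intro p hp
      rw [hsP, hPf, mem_siftPrimes] at hp
      have h1 : (p : ℝ) ≤ ⌊y⌋₊ := by exact_mod_cast hp.1.1
      exact h1.trans (Nat.floor_le hy0.le)) (by
      rw [hsP]
      have h1 : ∀ p ∈ P.primeFactors, s.nu p * (2 * Real.log p / Real.log y) =
          (2 * k / Real.log y) * (Real.log p / p) := by
        intro p hp
        rw [hnup p hp]
        ring
      rw [Finset.sum_congr rfl h1, ← Finset.mul_sum]
      have h2 : ∑ p ∈ P.primeFactors, Real.log p / (p : ℝ) ≤ Real.log y + Real.log 4 := by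
        have h3 : ∑ p ∈ P.primeFactors, Real.log p / (p : ℝ) ≤
            ∑ p ∈ Nat.primesLE ⌊y⌋₊, Real.log p / (p : ℝ) := by
          apply Finset.sum_le_sum_of_subset_of_nonneg
          · rw [hPf]; exact Finset.filter_subset _ _
          · intro p _ _
            exact div_nonneg (Real.log_natCast_nonneg p) (Nat.cast_nonneg p)
        have hfl : 1 ≤ ⌊y⌋₊ := Nat.le_floor (by push_cast; linarith)
        have h4 := Mertens.A_le ⌊y⌋₊ hfl
        have h5 : Real.log (⌊y⌋₊ : ℝ) ≤ Real.log y := by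
          apply Real.log_le_log
          · exact_mod_cast hfl
          · exact Nat.floor_le hy0.le
        unfold Mertens.A at h4
        linarith
      have h3 : Real.log 4 ≤ 2 * Real.log y := by
        have h4 : Real.log 4 = 2 * Real.log 2 := by
          rw [show (4 : ℝ) = 2 ^ 2 by norm_num, Real.log_pow]
          norm_num
        have h5 := Real.log_le_log (by norm_num) hy2
        linarith
      have h4 : (2 * k / Real.log y) * (∑ p ∈ P.primeFactors, Real.log p / (p : ℝ)) ≤
          (2 * k / Real.log y) * (3 * Real.log y) :=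
        mul_le_mul_of_nonneg_left (by linarith) (by positivity)
      have h5 : (2 * k / Real.log y) * (3 * Real.log y) = 6 * k := by
        field_simp
        ring
      rw [h5] at h4
      have h6 : (v : ℝ) = 6 * k + 1 := by rw [hv]; push_cast; ring
      linarith)
    rw [hsP] at hG
    have hbound := selberg_bound s hz1
    rw [hs, theSieve_siftedSum] at hbound
    have herr := error_le hk a b N P hPsq hg z
    -- main term
    have hprodpos : 0 < ∏ p ∈ P.primeFactors, (1 - s.nu p) := by
      apply Finset.prod_pos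
      intro p hp
      have h1 := s.nu_lt_one_of_prime p (Nat.prime_of_mem_primeFactors hp)
        (Nat.dvd_of_mem_primeFactors hp)
      linarith
    have hGinv : (selG s z)⁻¹ ≤ 2 * ∏ p ∈ P.primeFactors, (1 - s.nu p) := by
      rw [Finset.prod_inv_distrib] at hG
      have h1 : 0 < (1 / 2) * (∏ p ∈ P.primeFactors, (1 - s.nu p))⁻¹ := by positivity
      have h2 := inv_anti₀ h1 hG
      refine h2.trans (le_of_eq ?_)
      rw [mul_inv, inv_inv]
      norm_num
    have hprod : ∏ p ∈ P.primeFactors, (1 - s.nu p) ≤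
        C₁ * (1 / Real.log y) ^ k * ((E : ℝ) / Nat.totient E) ^ k := by
      have h1 : ∏ p ∈ P.primeFactors, (1 - s.nu p) =
          ∏ p ∈ siftPrimes k E y, (1 - (k : ℝ) / p) := by
        rw [← hPf]
        exact Finset.prod_congr rfl fun p hp => by rw [hnup p hp]
      rw [h1]
      exact hsift E y hE hy2
    have hlogN : Real.log T ≤ 2 * Real.log N := by
      have h1 : T ≤ (N : ℝ) ^ 2 := by
        have : (2 : ℝ) ≤ N := by exact_mod_cast hN2
        nlinarith
      have h2 := Real.log_le_log hT0 h1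
      rw [Real.log_pow] at h2
      exact_mod_cast h2
    have hinvlog : 1 / Real.log y ≤ (16 * v) / Real.log T := by
      rw [hlogy, one_div_div, div_le_div_iff₀ (Real.log_pos (by
        have : (2 : ℝ) ≤ N := by exact_mod_cast hN2
        linarith)) hlT]
      nlinarith
    have hmain : s.totalMass * (selG s z)⁻¹ ≤
        2 * C₁ * (16 * v) ^ k * (T / Real.log T ^ k) * ((E : ℝ) / Nat.totient E) ^ k := by
      have h0 : s.totalMass = (N : ℝ) := rfl
      rw [h0]
      have h1 : (1 / Real.log y) ^ k ≤ ((16 * v) / Real.log T) ^ k :=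
        pow_le_pow_left₀ (by positivity) hinvlog k
      calc (N : ℝ) * (selG s z)⁻¹
          ≤ T * (2 * (C₁ * ((16 * v) / Real.log T) ^ k * ((E : ℝ) / Nat.totient E) ^ k)) := by
            apply mul_le_mul hNT _ _ hT0.le
            · refine hGinv.trans ?_
              apply mul_le_mul_of_nonneg_left _ (by norm_num)
              refine hprod.trans ?_
              apply mul_le_mul_of_nonneg_right _ (by positivity)
              exact mul_le_mul_of_nonneg_left h1 hC₁.le
            · exact (inv_pos.2 (selG_pos s hz1)).le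
        _ = _ := by
            rw [div_pow]
            ring
    -- from prime values to sifted set
    have hcount := prime_count_le a b N E hE haE y hy0.le
    rw [← hP] at hcount
    have hTh : (N : ℝ) ^ ((1 : ℝ) / 2) ≤ (2 * k) ^ k * (T / Real.log T ^ k) := by
      refine le_trans ?_ (T_half_le k hk T hT)
      exact Real.rpow_le_rpow hN0.le hNT (by norm_num)
    have hfin : (((Finset.Ioc 0 N).filter (fun n => ∀ i, (a i * n + b i).Prime)).card : ℝ) ≤
        2 * C₁ * (16 * v) ^ k * (T / Real.log T ^ k) * ((E : ℝ) / Nat.totient E) ^ k +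
          2 * ((2 * k) ^ k * (T / Real.log T ^ k)) := by
      have e1 : (theSieve hk a b N P hPsq hg).prodPrimes = P := rfl
      rw [e1] at hbound
      linarith
    refine hfin.trans ?_
    have h7 : 2 * ((2 * k : ℝ) ^ k * (T / Real.log T ^ k)) ≤
        2 * ((2 * k : ℝ) ^ k * (T / Real.log T ^ k)) * ((E : ℝ) / Nat.totient E) ^ k :=
      le_mul_of_one_le_right (by positivity) hEr
    have h8 : 0 ≤ (8 * v : ℝ) ^ k * (T / Real.log T ^ k) * ((E : ℝ) / Nat.totient E) ^ k := by
      positivity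
    have e2 : (2 * C₁ * (16 * v) ^ k + 2 * (2 * k) ^ k + (8 * v) ^ k) * (T / Real.log T ^ k) *
        ((E : ℝ) / Nat.totient E) ^ k =
        2 * C₁ * (16 * v) ^ k * (T / Real.log T ^ k) * ((E : ℝ) / Nat.totient E) ^ k +
        2 * ((2 * k : ℝ) ^ k * (T / Real.log T ^ k)) * ((E : ℝ) / Nat.totient E) ^ k +
        (8 * v : ℝ) ^ k * (T / Real.log T ^ k) * ((E : ℝ) / Nat.totient E) ^ k := by ring
    rw [e2]
    linarith

end Crest.Agent.Lib.LinSieve
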